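import Vale.Agent.P057SH.Mass
import Vale.Agent.P057ST.Cos
import Vale.Agent.P057T1.Frz

/-!
Convolution of Gaussians along an integer map.
-/

set_option linter.all false

open Matrix Finset Real
open Vale.Agent.P267.H775 Vale.Agent.P057G Vale.Agent.P057PC Vale.Agent.P057SH
open Vale.Agent.P057ST (mR mR_one toR_mulVec)
open Vale.Agent.P057T1 (ind ind_pos ind_neg ind_nonneg ind_le abs_ind)

namespace Vale.Agent.P057AS

noncomputable section

section swap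

variable {α β : Type*} {g : α → ℝ} {a φ : α → β → ℝ} {K C : ℝ}

theorem abs_tsum_mul {u f : α → ℝ} (hu : Summable u) (u0 : ∀ x, 0 ≤ u x) (hf : ∀ x, |f x| ≤ C) :
    |∑' x, u x * f x| ≤ C * ∑' x, u x := by
  rw [← tsum_mul_left, ← Real.norm_eq_abs]
  refine tsum_of_norm_bounded (hu.mul_left C).hasSum fun x => ?_
  rw [Real.norm_eq_abs, abs_mul, abs_of_nonneg (u0 x), mul_comm]
  exact mul_le_mul_of_nonneg_right (hf x) (u0 x)

theorem summ2 (hg : Summable g) (g0 : ∀ x, 0 ≤ g x) (ha : ∀ x, Summable (a x))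
    (a0 : ∀ x y, 0 ≤ a x y) (hK : ∀ x, ∑' y, a x y ≤ K) (hφ : ∀ x y, |φ x y| ≤ C) :
    Summable fun q : α × β => g q.1 * (a q.1 q.2 * φ q.1 q.2) := by
  have h1 : Summable fun q : α × β => g q.1 * a q.1 q.2 := by
    refine (summable_prod_of_nonneg fun q => mul_nonneg (g0 _) (a0 _ _)).2
      ⟨fun x => (ha x).mul_left (g x), ?_⟩
    simp only [tsum_mul_left]
    exact summable_mul_real hg g0 (C := K) fun x => by
      rw [abs_of_nonneg (tsum_nonneg (a0 x))]; exact hK x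
  simpa only [mul_assoc] using summable_mul_real h1 (fun q => mul_nonneg (g0 _) (a0 _ _))
    (f := fun q => φ q.1 q.2) fun q => hφ _ _

/-- exchange of two weighted sums -/
theorem swap2 (hg : Summable g) (g0 : ∀ x, 0 ≤ g x) (ha : ∀ x, Summable (a x))
    (a0 : ∀ x y, 0 ≤ a x y) (hK : ∀ x, ∑' y, a x y ≤ K) (hφ : ∀ x y, |φ x y| ≤ C) :
    HasSum (fun y => ∑' x, g x * (a x y * φ x y)) (∑' x, g x * ∑' y, a x y * φ x y) := by
  have h := summ2 hg g0 ha a0 hK hφ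
  have e : ∑' x, g x * ∑' y, a x y * φ x y = ∑' q : α × β, g q.1 * (a q.1 q.2 * φ q.1 q.2) := by
    rw [h.tsum_prod]; simp only [tsum_mul_left]
  rw [e]
  have h2 := ((Equiv.prodComm β α).hasSum_iff (f := fun q : α × β =>
    g q.1 * (a q.1 q.2 * φ q.1 q.2))).2 h.hasSum
  exact h2.prod_fiberwise fun y => (h2.summable.prod_factor y).hasSum

theorem swap1 {u : β → ℝ} (hg : Summable g) (g0 : ∀ x, 0 ≤ g x) (hu : Summable u)
    (u0 : ∀ y, 0 ≤ u y) (hφ : ∀ x y, |φ x y| ≤ C) :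
    ∑' x, g x * ∑' y, u y * φ x y = ∑' y, u y * ∑' x, g x * φ x y := by
  rw [← (swap2 (a := fun _ => u) hg g0 (fun _ => hu) (fun _ => u0) (fun _ => le_rfl) hφ).tsum_eq]
  refine tsum_congr fun y => ?_
  rw [← tsum_mul_left]
  exact tsum_congr fun x => by ring

/-- selection of one point of a signed average -/
theorem select {u ψ : α → ℝ} [Nonempty α] (hu : Summable u) (u0 : ∀ x, 0 ≤ u x)
    (h2 : ∑' x, u x ≤ 2) (hψ : ∀ x, |ψ x| ≤ C) (Ω : α → Prop) :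
    ∃ (c : ℝ) (x₀ : α), 0 ≤ c ∧ c ≤ 1 ∧ ∑' x, u x * (ind (Ω x) * ψ x) ≤ 3 * (c * ψ x₀) := by
  by_contra hc
  push Not at hc
  obtain ⟨σ, hσ⟩ : ∃ σ, σ = ∑' x, u x * (ind (Ω x) * ψ x) := ⟨_, rfl⟩
  rw [← hσ] at hc
  have h0 := hc 0 (Classical.arbitrary α) le_rfl zero_le_one
  have h1 : σ ≤ ∑' x, σ / 3 * u x := by
    refine hσ.le.trans (Summable.tsum_le_tsum (fun x => ?_) (summable_mul_real hu u0 (C := C)
      fun x => ?_) (hu.mul_left _))
    · rw [mul_comm (σ / 3)]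
      refine mul_le_mul_of_nonneg_left ?_ (u0 x)
      have := hc 1 x zero_le_one le_rfl
      by_cases hx : Ω x
      · rw [ind_pos hx]; linarith
      · rw [ind_neg hx]; linarith
    · rw [abs_mul]
      exact (mul_le_of_le_one_left (abs_nonneg _) (abs_ind _)).trans (hψ x)
  rw [tsum_mul_left] at h1
  nlinarith

end swap

variable {L K : Type} [Fintype L] [DecidableEq L] [Fintype K] [DecidableEq K]
  {A Γ : Matrix L L ℝ} {G : Matrix K K ℝ}

/-- the Gram matrix of a convolution -/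
def cv (A : Matrix L L ℝ) (G : Matrix K K ℝ) (M : Matrix L K ℤ) : Matrix L L ℝ :=
  (A⁻¹ + mR M * G⁻¹ * (mR M)ᵀ)⁻¹

theorem sp_conv (M : Matrix L K ℤ) : Sp (fromRows 1 (-M)) (fromRows 0 (1 : Matrix L L ℤ))
    (fromCols (1 : Matrix K K ℤ) 0) (fromCols M 1) := by
  refine ⟨?_, ?_, ?_, ?_, ?_⟩
  · rw [fromCols_mul_fromRows]; simp
  · rw [fromCols_mul_fromRows]; simp
  · rw [fromCols_mul_fromRows]; simp
  · rw [fromCols_mul_fromRows]; simp
  · rw [fromRows_mul_fromCols, fromRows_mul_fromCols, fromBlocks_add, ← fromBlocks_one]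
    simp

theorem inv_blocks (hA : A.PosDef) (hG : G.PosDef) :
    (fromBlocks G 0 0 A)⁻¹ = fromBlocks G⁻¹ 0 0 A⁻¹ := by
  refine inv_eq_right_inv ?_
  rw [fromBlocks_multiply, ← fromBlocks_one]
  simp [mul_nonsing_inv _ (isUnit_iff_ne_zero.2 hA.det_pos.ne'),
    mul_nonsing_inv _ (isUnit_iff_ne_zero.2 hG.det_pos.ne')]

/-- **convolution** -/
theorem ng_conv (hA : A.PosDef) (hG : G.PosDef) (M : Matrix L K ℤ) :
    (cv A G M).PosDef ∧ (G + (mR M)ᵀ * A * mR M).PosDef ∧ ∀ c, ∃ c', ∀ u,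
      ng G u * ng A (c - mR M *ᵥ u) =
        ng (G + (mR M)ᵀ * A * mR M) (u - c') * ng (cv A G M) c := by
  have h := sp_conv M
  have hJ := posDef_blocks hG hA
  have m1 : mR (fromRows (1 : Matrix K K ℤ) (-M)) = fromRows 1 (-mR M) := by
    ext (i | i) j <;> simp [mR, Matrix.one_apply]
  have m2 : mR (fromCols M (1 : Matrix L L ℤ)) = fromCols (mR M) 1 := by
    ext i (j | j) <;> simp [mR, Matrix.one_apply]
  have e1 : g1 (fromBlocks G 0 0 A) (fromRows 1 (-M)) = G + (mR M)ᵀ * A * mR M := by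
    rw [g1, m1, transpose_fromRows, fromCols_mul_fromBlocks, fromCols_mul_fromRows]
    simp
  have e2 : g2 (fromBlocks G 0 0 A) (fromCols M 1) = cv A G M := by
    rw [g2, m2, inv_blocks hA hG, transpose_fromCols, fromCols_mul_fromBlocks,
      fromCols_mul_fromRows, cv]
    simp [add_comm]
  refine ⟨e2 ▸ h.pd2 hJ, e1 ▸ h.pd1 hJ, fun c => ⟨-(pj (fromBlocks G 0 0 A) (fromCols 1 0)
    (fromCols M 1) *ᵥ Sum.elim 0 c), fun u => ?_⟩⟩
  have k := h.ng_eq hJ (Sum.elim u (c - mR M *ᵥ u))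
  rw [ng_blocks hG, e1, e2] at k
  have e3 : Sum.elim u (c - mR M *ᵥ u) =
      mR (fromRows (1 : Matrix K K ℤ) (-M)) *ᵥ u + Sum.elim (0 : K → ℝ) c := by
    rw [m1, fromRows_mulVec]
    ext (i | i) <;> simp [neg_mulVec, sub_eq_neg_add]
  have e4 : mR (fromCols M (1 : Matrix L L ℤ)) *ᵥ Sum.elim u (c - mR M *ᵥ u) = c := by
    rw [m2, fromCols_mulVec_sumElim]; simp
  rw [e4] at k
  rw [sub_neg_eq_add]
  refine Eq.trans ?_ (k.trans ?_)
  · rfl
  · rw [e3, mulVec_add, mulVec_mulVec, h.pjL, one_mulVec]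

theorem inv_inv' (hA : A.PosDef) : A⁻¹⁻¹ = A :=
  nonsing_inv_nonsing_inv _ (isUnit_iff_ne_zero.2 hA.det_pos.ne')

theorem qq_dual (hA : A.PosDef) (hG : G.PosDef) (M : Matrix L K ℝ)
    (h : ∀ u, 5 * qq A (M *ᵥ u) ≤ qq G u) (v : L → ℝ) :
    5 * qq (M * G⁻¹ * Mᵀ) v ≤ qq A⁻¹ v := by
  have e : qq (M * G⁻¹ * Mᵀ) v = qq G⁻¹ (Mᵀ *ᵥ v) := by rw [← qq_conj, transpose_transpose]
  have e2 : (M *ᵥ (G⁻¹ *ᵥ (Mᵀ *ᵥ v))) ⬝ᵥ v = qq G⁻¹ (Mᵀ *ᵥ v) := by
    rw [qq, dotProduct_comm, dotProduct_mulVec, mulVec_transpose]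
  have k := dot_sq_le hA (M *ᵥ (G⁻¹ *ᵥ (Mᵀ *ᵥ v))) v
  have k2 := h (G⁻¹ *ᵥ (Mᵀ *ᵥ v))
  rw [qq_inv hG] at k2
  rw [e2] at k
  rw [e]
  have p1 := qq_nonneg hG.inv.posSemidef (Mᵀ *ᵥ v)
  have p2 := qq_nonneg hA.inv.posSemidef v
  rcases p1.eq_or_lt with p | p
  · linarith
  · nlinarith

/-- the Gram matrices of the intermediate state -/
theorem exists_gram (hΓ : Γ.PosDef) (hG : G.PosDef) (M : Matrix L K ℤ) {γ : ℝ} (hγ : 2 ≤ γ)
    (h : ∀ u, 5 * (γ * qq Γ (mR M *ᵥ u)) ≤ qq G u) :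
    ∃ A : Matrix L L ℝ, A.PosDef ∧ cv A G M = γ • Γ ∧ (∀ v, qq A v ≤ 5 / 4 * γ * qq Γ v) ∧
      cv (cv A Γ 1) G M = (γ / (1 + γ)) • Γ ∧ ∀ v, qq (cv A Γ 1) v ≤ qq Γ v := by
  have h0 : 0 < γ := by linarith
  have h1 := hΓ.smul h0
  have k1 := qq_dual h1 hG (mR M) fun u => by rw [qq_smul_mat]; exact h u
  have hD : (mR M * G⁻¹ * (mR M)ᵀ).IsHermitian := by
    simpa using isHermitian_mul_mul_conjTranspose (mR M) hG.inv.1
  have h4 := h1.inv.smul (by norm_num : (0 : ℝ) < 4 / 5)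
  have k2 : ∀ v, qq ((4 / 5 : ℝ) • (γ • Γ)⁻¹) v ≤ qq ((γ • Γ)⁻¹ - mR M * G⁻¹ * (mR M)ᵀ) v :=
    fun v => by
      have := qq_add_mat ((γ • Γ)⁻¹ - mR M * G⁻¹ * (mR M)ᵀ) (mR M * G⁻¹ * (mR M)ᵀ) v
      rw [sub_add_cancel] at this
      have := k1 v
      rw [qq_smul_mat]; linarith
  have hC := posDef_of_le h4 (h1.inv.1.sub hD) k2
  have hs := hC.add hΓ.inv
  have e1 : cv ((γ • Γ)⁻¹ - mR M * G⁻¹ * (mR M)ᵀ)⁻¹ Γ 1 =
      ((γ • Γ)⁻¹ - mR M * G⁻¹ * (mR M)ᵀ + Γ⁻¹)⁻¹ := by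
    rw [cv, inv_inv' hC, mR_one]; simp
  refine ⟨_, hC.inv, ?_, fun v => ?_, ?_, fun v => ?_⟩
  · rw [cv, inv_inv' hC, sub_add_cancel, inv_inv' h1]
  · refine (qq_inv_anti h4 hC k2 v).trans (le_of_eq ?_)
    rw [inv_smul_mat (by norm_num) h1.inv, inv_inv' h1, qq_smul_mat, qq_smul_mat]
    ring
  · rw [e1, cv, inv_inv' hs, add_right_comm, sub_add_cancel, inv_smul_mat h0.ne' hΓ]
    nth_rewrite 2 [← one_smul ℝ Γ⁻¹]
    rw [← add_smul, inv_smul_mat (by positivity) hΓ.inv, inv_inv' hΓ]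
    congr 1; field_simp
  · rw [e1]
    refine (qq_inv_anti hΓ.inv hs (fun x => ?_) v).trans (by rw [inv_inv' hΓ])
    rw [qq_add_mat]
    linarith [qq_nonneg hC.posSemidef x]

variable {lv : L → ℕ} {p : (L → ℤ) → L → ℝ}

theorem summ_pos (hp : Tri lv p) (hA : A.PosDef) (c : L → ℝ) :
    Summable fun z : L → ℤ => ng A (toR z - p z - c) := by
  simpa only [sub_sub] using summable_ng (tri_add hp c) hA

theorem bdd_pos (hp : Tri lv p) (hA : A.PosDef) :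
    ∃ K, ∀ c, ∑' z : L → ℤ, ng A (toR z - p z - c) ≤ K := by
  obtain ⟨B, hB⟩ := ms_bdd hA
  exact ⟨B, fun c => by simpa only [ms, sub_sub] using hB lv _ (tri_add hp c)⟩

/-- fineness passes to wider Gaussians -/
theorem fine_mono (hp : Tri lv p) (hA : A.PosDef) (hΓ : Γ.PosDef) {a b : ℝ} (hab : a < b)
    (h : ∀ v, qq A v ≤ a * qq Γ v) (hF : ∀ c, ∑' z : L → ℤ, ng (b • Γ) (toR z - p z - c) ≤ 2)
    (c : L → ℝ) : ∑' z : L → ℤ, ng A (toR z - p z - c) ≤ 2 := by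
  have hR : (b • Γ - A).PosDef := by
    refine posDef_of_le (hΓ.smul (sub_pos.2 hab)) ((hΓ.1.smul (IsSelfAdjoint.all b)).sub hA.1)
      fun v => ?_
    have := qq_add_mat (b • Γ - A) A v
    rw [sub_add_cancel, qq_smul_mat] at this
    have := h v
    rw [qq_smul_mat]; linarith
  have k := ms_mix (tri_add hp c) hA hR (a := 1) (η := 1) fun c' => by
    have k1 := hF (c + c')
    have k2 := ms_nonneg (b • Γ) fun z => p z + c + c'
    simp only [ms, sub_sub, ← add_assoc] at k1 k2 ⊢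
    rw [abs_le]; constructor <;> linarith
  simp only [ms, ← sub_sub] at k
  linarith [(abs_le.1 k).2]

/-- the structure of the fibre: triangular centres, and an integer map that moves positions -/
structure Fb (lv : L → ℕ) (p p' : (L → ℤ) → L → ℝ) (M : Matrix L K ℤ) (U : Matrix K K ℝ)
    (a : K → ℝ) : Prop where
  tri : Tri lv p
  tri' : Tri lv p'
  det : U.det = 1
  add : ∀ z t, toR (z + M *ᵥ t) - p (z + M *ᵥ t) = toR z - p' z + mR M *ᵥ (U *ᵥ (toR t - a))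

variable {M : Matrix L K ℤ} {U W : Matrix K K ℝ} {p' : (L → ℤ) → L → ℝ} {a : K → ℝ}

theorem pd_conj (hU : U.det = 1) (hG : G.PosDef) : (Uᵀ * G * U).PosDef := by
  simpa using hG.conjTranspose_mul_mul_same (B := U)
    (mulVec_injective_iff_isUnit.2 ((isUnit_iff_isUnit_det U).2 (by simp [hU])))

theorem summ_zero (hG : G.PosDef) (a : K → ℝ) : Summable fun t : K → ℤ => ng G (toR t - a) :=
  summable_ng (lv := fun _ => 0) (p := fun _ => a) (fun _ _ _ _ => rfl) hG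

/-- the sum over a displacement and a base point as a sum over the end point -/
theorem Fb.conv (h : Fb lv p p' M U a) (hA : A.PosDef) (hG : G.PosDef) (hW : W.PosDef)
    (hle : ∀ u, qq G (U *ᵥ u) + qq A (mR M *ᵥ (U *ᵥ u)) ≤ qq W u) (c : L → ℝ) :
    ∃ ρ : (L → ℤ) → ℝ, (∀ s, |ρ s - 1| ≤ th W⁻¹ 0 - 1) ∧ ∀ (φ : (L → ℤ) → ℝ) (C : ℝ),
      (∀ s, |φ s| ≤ C) → ∑' t, ng (Uᵀ * G * U) (toR t - a) *
        ∑' z, ng A (toR z - p' z - c) * φ (z + M *ᵥ t) =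
      ∑' s, ng (cv A G M) (toR s - p s - c) * (ρ s * φ s) := by
  obtain ⟨-, hH, hc⟩ := ng_conv hA hG M
  choose N hN using hc
  have hH' := pd_conj h.det hH
  have hU : ∀ v, U *ᵥ (U⁻¹ *ᵥ v) = v := fun v => by
    rw [mulVec_mulVec, mul_nonsing_inv _ (by simp [h.det]), one_mulVec]
  refine ⟨fun s => th (Uᵀ * (G + (mR M)ᵀ * A * mR M) * U) (a + U⁻¹ *ᵥ N (toR s - p s - c)) /
    vol (Uᵀ * (G + (mR M)ᵀ * A * mR M) * U), fun s => ?_, fun φ C hφ => ?_⟩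
  · have k := abs_th_sub_vol hH' (a + U⁻¹ *ᵥ N (toR s - p s - c))
    have v := vol_pos hH'
    rw [div_sub_one v.ne', abs_div, abs_of_pos v, div_le_iff₀' v]
    refine k.trans (mul_le_mul_of_nonneg_left (sub_le_sub_right (th_inv_mono hH' hW
      (fun u => ?_) 0) 1) v.le)
    rw [qq_conj, qq_add_mat, qq_conj]
    exact hle u
  · obtain ⟨K', hK⟩ := bdd_pos h.tri hA
    have e : ∀ t, ∑' z, ng A (toR z - p' z - c) * φ (z + M *ᵥ t) =
        ∑' s, ng A (toR s - p s - (c + mR M *ᵥ (U *ᵥ (toR t - a)))) * φ s := fun t => by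
      rw [← (Equiv.addRight (M *ᵥ t)).tsum_eq fun s =>
        ng A (toR s - p s - (c + mR M *ᵥ (U *ᵥ (toR t - a)))) * φ s]
      refine tsum_congr fun z => ?_
      rw [Equiv.coe_addRight, h.add, add_sub_add_right_eq_sub]
    simp only [e]
    rw [← (swap2 (summ_zero (pd_conj h.det hG) a) (fun _ => ng_nonneg _ _)
      (fun t => summ_pos h.tri hA _) (fun _ _ => ng_nonneg _ _) (fun _ => hK _)
      (φ := fun _ s => φ s) fun _ s => hφ s).tsum_eq]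
    refine tsum_congr fun s => ?_
    rw [th, ← tsum_div_const, ← tsum_mul_right, ← tsum_mul_left]
    refine tsum_congr fun t => ?_
    have e2 := hN (toR s - p s - c) (U *ᵥ (toR t - a))
    have e3 := ng_conj h.det (G + (mR M)ᵀ * A * mR M)
      (toR t - a - U⁻¹ *ᵥ N (toR s - p s - c))
    rw [mulVec_sub, hU, sub_sub] at e3
    rw [ng_conj h.det, ← sub_sub, ← mul_assoc, e2, ← e3, ng]
    ring

end

end Vale.Agent.P057AS
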