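import Vale.Agent.P057AS.Conv

/-!
The fibre over the labels of the vertices: replacement of the kernel and choice of base points.
-/

set_option linter.all false

open Matrix Finset Real
open Vale.Agent.P267.H775 Vale.Agent.P057G Vale.Agent.P057PC Vale.Agent.P057SH
open Vale.Agent.P057ST (mR mR_one toR_mulVec)
open Vale.Agent.P057T1 (ind ind_pos ind_neg ind_nonneg ind_le abs_ind)

namespace Vale.Agent.P057AS

noncomputable section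

theorem low3 {α : Type*} {u f g₁ g₂ g₃ : α → ℝ} {C C₁ C₂ C₃ : ℝ} (hu : Summable u)
    (u0 : ∀ x, 0 ≤ u x) (hf : ∀ x, |f x| ≤ C) (h1 : ∀ x, |g₁ x| ≤ C₁) (h2 : ∀ x, |g₂ x| ≤ C₂)
    (h3 : ∀ x, |g₃ x| ≤ C₃) (a b : ℝ) (h : ∀ x, g₁ x - a * g₂ x - b * g₃ x ≤ f x) :
    ∑' x, u x * g₁ x - a * ∑' x, u x * g₂ x - b * ∑' x, u x * g₃ x ≤ ∑' x, u x * f x :=
  hasSum_le (fun x => le_of_eq_of_le (by ring) (mul_le_mul_of_nonneg_left (h x) (u0 x)))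
    (((summable_mul_real hu u0 h1).hasSum.sub
      ((summable_mul_real hu u0 h2).hasSum.mul_left a)).sub
      ((summable_mul_real hu u0 h3).hasSum.mul_left b)) (summable_mul_real hu u0 hf).hasSum

theorem abs_mul_le {a b C : ℝ} (ha : |a| ≤ 1) (hb : |b| ≤ C) : |a * b| ≤ C := by
  rw [abs_mul]
  exact (mul_le_of_le_one_left (abs_nonneg _) ha).trans hb

variable {L K : Type} [Fintype L] [DecidableEq L] [Fintype K] [DecidableEq K]
  {A Γ : Matrix L L ℝ} {G U W : Matrix K K ℝ} {M : Matrix L K ℤ} {lv : L → ℕ}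
  {p p' : (L → ℤ) → L → ℝ} {a : K → ℝ}

theorem tail_zero (hG : G.PosDef) (a : K → ℝ) (R : ℝ) :
    ∑' t : K → ℤ, ng G (toR t - a) * ind (R < qq G (toR t - a)) ≤
      exp (Fintype.card K - R) * th G⁻¹ 0 := by
  have k := tail_le (lv := fun _ => 0) (p := fun _ => a) hG (fun _ _ h => absurd rfl h)
    (fun _ _ _ _ => rfl) R (f := fun t => ind (R < qq G (toR t - a))) zero_le_one
    (fun _ => abs_ind _) fun z hz => ind_neg (not_lt.2 hz)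
  rw [ms_zero hG, one_mul] at k
  exact (le_abs_self _).trans k

/-- replacement of the kernel around one base point -/
theorem Fb.base (h : Fb lv p p' M U a) (hA : A.PosDef) (hG : G.PosDef) (hW : W.PosDef)
    (hle : ∀ u, qq G (U *ᵥ u) + qq A (mR M *ᵥ (U *ᵥ u)) ≤ qq W u) {c : L → ℝ}
    {e c₁ k₁ : (L → ℤ) → ℝ} {k₂ : (K → ℤ) → (L → ℤ) → ℝ} {B Mc X δ ε η R : ℝ}
    (he : ∀ s, |e s| ≤ B * c₁ s) (c0 : ∀ s, 0 ≤ c₁ s) (cM : ∀ s, c₁ s ≤ Mc) (hB : 0 ≤ B)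
    (h1 : ∀ s, |k₁ s| ≤ 1) (h2 : ∀ t z, |k₂ t z| ≤ 1) (hε : 0 ≤ ε)
    (hk : ∀ t z, qq (Uᵀ * G * U) (toR t - a) ≤ R → |k₁ (z + M *ᵥ t) - k₂ t z| ≤ ε)
    (hθ : th W⁻¹ 0 ≤ 1 + η) (hη : η ≤ 1)
    (hδ : δ ≤ ∑' s, ng (cv A G M) (toR s - p s - c) * (k₁ s * e s))
    (hX : ∑' s, ng (cv A G M) (toR s - p s - c) * c₁ s ≤ X)
    (hF : ∑' z, ng A (toR z - p' z - c) ≤ 2) :
    δ - (η * B * X + 2 * ε * B * X + 8 * B * Mc * exp (Fintype.card K - R)) ≤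
      ∑' t, ng (Uᵀ * G * U) (toR t - a) *
        ∑' z, ng A (toR z - p' z - c) * (k₂ t z * e (z + M *ᵥ t)) := by
  obtain ⟨ρ, hρ, hc⟩ := h.conv hA hG hW hle c
  have hG' := pd_conj h.det hG
  have s1 := summ_pos h.tri (ng_conv hA hG M).1 c
  have s2 := summ_pos h.tri' hA c
  have s3 := summ_zero hG' a
  have η0 : 0 ≤ η := by linarith [one_le_th_zero hW.inv]
  have M0 : 0 ≤ Mc := (c0 0).trans (cM 0)
  have b1 : ∀ s, |c₁ s| ≤ Mc := fun s => by rw [abs_of_nonneg (c0 s)]; exact cM s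
  have b2 : ∀ s, |e s| ≤ B * Mc := fun s => (he s).trans (mul_le_mul_of_nonneg_left (cM s) hB)
  have b3 : ∀ s, |k₁ s * e s| ≤ B * Mc := fun s => abs_mul_le (h1 s) (b2 s)
  have b4 : ∀ s, |ρ s| ≤ 2 := fun s => by
    have := abs_le.1 (hρ s)
    rw [abs_le]; constructor <;> linarith
  have b5 : ∀ {φ : (L → ℤ) → ℝ} {C : ℝ}, (∀ s, |φ s| ≤ C) → ∀ s, |ρ s * φ s| ≤ 2 * C :=
    fun hφ s => by
      rw [abs_mul]; exact mul_le_mul (b4 s) (hφ s) (abs_nonneg _) zero_le_two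
  have b6 : ∀ {φ : (L → ℤ) → ℝ} {C : ℝ}, (∀ s, |φ s| ≤ C) →
      |∑' z, ng A (toR z - p' z - c) * φ z| ≤ C * 2 := fun hφ =>
    (abs_tsum_mul s2 (fun _ => ng_nonneg _ _) hφ).trans
      (mul_le_mul_of_nonneg_left hF ((abs_nonneg _).trans (hφ 0)))
  have t1 := low3 s1 (fun _ => ng_nonneg _ _) (b5 b3) b3 b1 b1 (η * B) 0 fun s => by
    have a1 : |(ρ s - 1) * (k₁ s * e s)| ≤ η * (B * c₁ s) := by
      rw [abs_mul]
      exact mul_le_mul ((hρ s).trans (by linarith)) (abs_mul_le (h1 s) (he s)) (abs_nonneg _) η0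
    linarith [(abs_le.1 a1).1]
  have t0 := low3 s1 (fun _ => ng_nonneg _ _) b1 (b5 b1) b1 b1 1 0 fun s => by
    nlinarith [(abs_le.1 (b4 s)).2, c0 s]
  have t2 := low3 s3 (fun _ => ng_nonneg _ _)
    (f := fun t => ∑' z, ng A (toR z - p' z - c) * (k₂ t z * e (z + M *ᵥ t)))
    (fun t => b6 fun z => abs_mul_le (h2 t z) (b2 _))
    (fun t => b6 (φ := fun z => k₁ (z + M *ᵥ t) * e (z + M *ᵥ t)) fun z => b3 _)
    (fun t => b6 (φ := fun z => c₁ (z + M *ᵥ t)) fun z => b1 _)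
    (fun t => abs_ind (R < qq (Uᵀ * G * U) (toR t - a))) (ε * B) (4 * B * Mc) fun t => by
      have a1 := low3 s2 (fun _ => ng_nonneg _ _) (fun z => abs_mul_le (h2 t z) (b2 (z + M *ᵥ t)))
        (fun z => b3 (z + M *ᵥ t)) (fun z => b1 (z + M *ᵥ t)) (g₃ := fun _ => 1)
        (fun _ => abs_one.le) (ε * B) (2 * B * Mc * ind (R < qq (Uᵀ * G * U) (toR t - a))) fun z => by
          by_cases ht : R < qq (Uᵀ * G * U) (toR t - a)
          · have a2 := (abs_le.1 (abs_mul_le (h2 t z) (b2 (z + M *ᵥ t)))).1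
            have a3 := (abs_le.1 (b3 (z + M *ᵥ t))).2
            have a4 := mul_nonneg (mul_nonneg hε hB) (c0 (z + M *ᵥ t))
            rw [ind_pos ht]; linarith
          · have a2 : |(k₁ (z + M *ᵥ t) - k₂ t z) * e (z + M *ᵥ t)| ≤ ε * (B * c₁ (z + M *ᵥ t)) := by
              rw [abs_mul]
              exact mul_le_mul (hk t z (not_lt.1 ht)) (he _) (abs_nonneg _) hε
            rw [ind_neg ht]; linarith [(abs_le.1 a2).2]
      simp only [mul_one] at a1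
      have a5 := mul_le_mul_of_nonneg_left hF (mul_nonneg (by positivity : 0 ≤ 2 * B * Mc)
        (ind_nonneg (R < qq (Uᵀ * G * U) (toR t - a))))
      linarith
  rw [hc (fun s => k₁ s * e s) _ b3, hc c₁ _ b1] at t2
  have t3 := (tail_zero hG' a R).trans (mul_le_mul_of_nonneg_left ((th_inv_mono hG' hW (fun u => by
    rw [qq_conj]; linarith [hle u, qq_nonneg hA.posSemidef (mR M *ᵥ (U *ᵥ u))]) 0).trans
    (hθ.trans (by linarith : 1 + η ≤ 2))) (exp_pos _).le)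
  have t4 := mul_le_mul_of_nonneg_left t3 (by positivity : 0 ≤ 4 * B * Mc)
  have t5 := mul_le_mul_of_nonneg_left hX (mul_nonneg η0 hB)
  have t6 := mul_le_mul_of_nonneg_left (show ∑' s, ng (cv A G M) (toR s - p s - c) *
    (ρ s * c₁ s) ≤ 2 * X by linarith) (mul_nonneg hε hB)
  linarith

/-- the mass of the fibre -/
theorem Fb.mass (h : Fb lv p p' M U a) (hA : A.PosDef) (hG : G.PosDef) (hW : W.PosDef)
    (hle : ∀ u, qq G (U *ᵥ u) + qq A (mR M *ᵥ (U *ᵥ u)) ≤ qq W u) {c₁ : (L → ℤ) → ℝ} {Mc : ℝ}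
    (c0 : ∀ s, 0 ≤ c₁ s) (cM : ∀ s, c₁ s ≤ Mc) :
    ∑' t, ng (Uᵀ * G * U) (toR t - a) * ∑' z, ng A (toR z - p' z) * c₁ (z + M *ᵥ t) ≤
      th W⁻¹ 0 * ∑' s, ng (cv A G M) (toR s - p s) * c₁ s := by
  obtain ⟨ρ, hρ, hc⟩ := h.conv hA hG hW hle 0
  have b1 : ∀ s, |c₁ s| ≤ Mc := fun s => by rw [abs_of_nonneg (c0 s)]; exact cM s
  have s1 := summ_pos h.tri (ng_conv hA hG M).1 0
  have k := hc c₁ _ b1
  have t := low3 s1 (fun _ => ng_nonneg _ _) (f := fun _ => 0) (fun _ => abs_zero.le)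
    (g₁ := fun s => ρ s * c₁ s) (C₁ := th W⁻¹ 0 * Mc) (fun s => by
      have := abs_le.1 (hρ s)
      have := one_le_th_zero hW.inv
      rw [abs_mul]
      exact mul_le_mul (abs_le.2 ⟨by linarith, by linarith⟩) (b1 s) (abs_nonneg _) (by linarith))
    b1 b1 (th W⁻¹ 0) 0 fun s => by nlinarith [(abs_le.1 (hρ s)).2, c0 s]
  simp only [sub_zero, mul_zero, tsum_zero, zero_mul] at k t
  linarith

/-- averaging over the base points and choice of one base point for every new point -/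
theorem choose_base (hp : Tri lv p) (hp' : Tri lv p') (hA : A.PosDef) (hΓ : Γ.PosDef)
    (hF : ∀ c, ∑' z : L → ℤ, ng (Γ + A) (toR z - p z - c) ≤ 2) {β : Type*}
    {Ψ : (L → ℤ) → β → ℝ} {C δ μ : ℝ} (hΨ : ∀ z b, |Ψ z b| ≤ C) (bb : (L → ℤ) → (L → ℤ) → β)
    {Ω : (L → ℤ) → Prop} (δ0 : 0 ≤ δ)
    (hδ : ∀ z₀, Ω z₀ → δ ≤ ∑' z, ng A (toR z - p' z - (toR z₀ - p z₀)) * Ψ z (bb z₀ z))
    (hμ : μ ≤ ∑' z, ng Γ (toR z - p z) * ind (Ω z)) :
    ∃ (u : (L → ℤ) → ℝ) (b : (L → ℤ) → β), (∀ z, 0 ≤ u z ∧ u z ≤ 1) ∧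
      μ * δ ≤ 3 * ∑' z, ng (cv A Γ 1) (toR z - p' z) * (u z * Ψ z (b z)) := by
  obtain ⟨h2, hH, hc⟩ := ng_conv hA hΓ 1
  simp only [mR_one, transpose_one, Matrix.one_mul, Matrix.mul_one, one_mulVec] at hH hc
  choose N hN using hc
  choose u x u0 u1 hu using fun z => select (summ_pos hp hH (N (toR z - p' z)))
    (fun _ => ng_nonneg _ _) (hF _) (ψ := fun z₀ => Ψ z (bb z₀ z)) (fun _ => hΨ _ _) Ω
  refine ⟨u, fun z => bb (x z) z, fun z => ⟨u0 z, u1 z⟩, ?_⟩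
  obtain ⟨K', hK⟩ := bdd_pos hp' hA
  have s1 : Summable fun z => ng Γ (toR z - p z) := summable_ng hp hΓ
  have b1 : ∀ z₀ z, |ind (Ω z₀) * Ψ z (bb z₀ z)| ≤ C := fun z₀ z => abs_mul_le (abs_ind _) (hΨ _ _)
  have k := swap2 s1 (fun _ => ng_nonneg _ _) (fun z₀ => summ_pos hp' hA (toR z₀ - p z₀))
    (fun _ _ => ng_nonneg _ _) (fun _ => hK _) b1
  have k1 := hasSum_le (fun z => ?_) k ((summable_mul_real (summable_ng hp' h2)
    (fun _ => ng_nonneg _ _) (f := fun z => u z * Ψ z (bb (x z) z)) (C := C) fun z =>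
      abs_mul_le (abs_le.2 ⟨by linarith [u0 z], u1 z⟩) (hΨ _ _)).hasSum.mul_left 3)
  · refine le_trans ?_ k1
    have k2 := low3 s1 (fun _ => ng_nonneg _ _) (f := fun z₀ => ∑' z, ng A (toR z - p' z -
      (toR z₀ - p z₀)) * (ind (Ω z₀) * Ψ z (bb z₀ z))) (C := C * K') (fun z₀ =>
        (abs_tsum_mul (summ_pos hp' hA _) (fun _ => ng_nonneg _ _) (b1 z₀)).trans
          (mul_le_mul_of_nonneg_left (hK _) ((abs_nonneg _).trans (b1 0 0))))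
      (g₁ := fun _ => 0) (fun _ => abs_zero.le) (fun z => abs_ind (Ω z)) (fun z => abs_ind (Ω z))
      (-δ) 0 fun z₀ => by
        by_cases h0 : Ω z₀
        · simpa [ind_pos h0] using hδ z₀ h0
        · simp [ind_neg h0]
    simp only [mul_zero, tsum_zero] at k2
    linarith [mul_le_mul_of_nonneg_right hμ δ0]
  · rw [mul_left_comm]
    refine le_of_eq_of_le ?_ (mul_le_mul_of_nonneg_left (hu z) (ng_nonneg _ _))
    rw [← tsum_mul_left]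
    refine tsum_congr fun z₀ => ?_
    rw [← mul_assoc, hN]
    ring

/-- **the fibre** over a good point -/
theorem Fb.good (h : Fb lv p p' M U a) (hA : A.PosDef) (hΓ : Γ.PosDef) (hG : G.PosDef) (hW : W.PosDef)
    (hle : ∀ u, qq G (U *ᵥ u) + qq A (mR M *ᵥ (U *ᵥ u)) ≤ qq W u)
    (hF : ∀ c, ∑' z : L → ℤ, ng (Γ + A) (toR z - p z - c) ≤ 2)
    (hF' : ∀ c, ∑' z : L → ℤ, ng A (toR z - p' z - c) ≤ 2) {β : Type*} {e c₁ : (L → ℤ) → ℝ}
    {k₁ : (L → ℤ) → (L → ℤ) → ℝ} {k : (K → ℤ) → β → ℝ} (bb : (L → ℤ) → (L → ℤ) → β)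
    {Ω : (L → ℤ) → Prop} {B Mc X δ ε η R μ : ℝ}
    (he : ∀ s, |e s| ≤ B * c₁ s) (c0 : ∀ s, 0 ≤ c₁ s) (cM : ∀ s, c₁ s ≤ Mc) (hB : 0 ≤ B)
    (h1 : ∀ z₀ s, |k₁ z₀ s| ≤ 1) (h2 : ∀ t b, |k t b| ≤ 1) (hε : 0 ≤ ε)
    (hk : ∀ z₀ t z, qq (Uᵀ * G * U) (toR t - a) ≤ R → |k₁ z₀ (z + M *ᵥ t) - k t (bb z₀ z)| ≤ ε)
    (hθ : th W⁻¹ 0 ≤ 1 + η) (hη : η ≤ 1) (δ0 : 0 ≤ δ)
    (hδ : ∀ z₀, Ω z₀ →
      2 * δ ≤ ∑' s, ng (cv A G M) (toR s - p s - (toR z₀ - p z₀)) * (k₁ z₀ s * e s) ∧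
      ∑' s, ng (cv A G M) (toR s - p s - (toR z₀ - p z₀)) * c₁ s ≤ X)
    (hn : η * B * X + 2 * ε * B * X + 8 * B * Mc * exp (Fintype.card K - R) ≤ δ)
    (hμ : μ ≤ ∑' z, ng Γ (toR z - p z) * ind (Ω z)) :
    ∃ (u : (L → ℤ) → ℝ) (b : (L → ℤ) → β), (∀ z, 0 ≤ u z ∧ u z ≤ 1) ∧
      μ * δ ≤ 3 * ∑' t, ng (Uᵀ * G * U) (toR t - a) *
        ∑' z, ng (cv A Γ 1) (toR z - p' z) * (u z * k t (b z) * e (z + M *ᵥ t)) := by
  have s3 := summ_zero (pd_conj h.det hG) a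
  have b2 : ∀ s, |e s| ≤ B * Mc := fun s => (he s).trans (mul_le_mul_of_nonneg_left (cM s) hB)
  obtain ⟨u, b, hu, hb⟩ := choose_base h.tri h.tri' hA hΓ hF
    (Ψ := fun z b => ∑' t, ng (Uᵀ * G * U) (toR t - a) * (k t b * e (z + M *ᵥ t)))
    (fun z b => abs_tsum_mul s3 (fun _ => ng_nonneg _ _) fun t => abs_mul_le (h2 t b) (b2 _))
    bb δ0 (fun z₀ h0 => by
      have a1 := h.base hA hG hW hle he c0 cM hB (h1 z₀) (k₂ := fun t z => k t (bb z₀ z))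
        (fun _ _ => h2 _ _) hε (hk z₀) hθ hη (hδ z₀ h0).1 (hδ z₀ h0).2 (hF' _)
      rw [swap1 s3 (fun _ => ng_nonneg _ _) (summ_pos h.tri' hA _) (fun _ => ng_nonneg _ _)
        fun t z => abs_mul_le (h2 t (bb z₀ z)) (b2 (z + M *ᵥ t))] at a1
      linarith) hμ
  refine ⟨u, b, hu, hb.trans (le_of_eq (congrArg _ ?_))⟩
  rw [swap1 s3 (fun _ => ng_nonneg _ _) (summable_ng h.tri' (ng_conv hA hΓ 1).1)
    (fun _ => ng_nonneg _ _) (C := B * Mc) fun t z => abs_mul_le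
      (abs_mul_le (abs_le.2 ⟨by linarith [(hu z).1], (hu z).2⟩) (h2 t (b z))) (b2 (z + M *ᵥ t))]
  refine tsum_congr fun z => congrArg _ ?_
  rw [← tsum_mul_left]
  exact tsum_congr fun t => by ring

end

end Vale.Agent.P057AS
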