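import Vale.Agent.P057AS.Plan
import Vale.Agent.P057AS.Fib
import Vale.Agent.P057LU.Upp
import Vale.Agent.P057DR.Drop

/-!
The kernel, and global estimates on the core of a system.
-/

set_option linter.all false

open Matrix Finset Real
open Vale.Agent.P267.H775 Vale.Agent.P057G Vale.Agent.P057PC Vale.Agent.P057SH Vale.Agent.P057MA
open Vale.Agent.P057SG
open Vale.Agent.P057T1 (ind ind_pos ind_neg ind_nonneg ind_le abs_ind NF)
open Vale.Agent.P057DP (Sel cb thK)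
open Vale.Agent.P057IV (Mg)
open Vale.Agent.P057DR (mul_exp pow_exp le_exp)

namespace Vale.Agent.P057AS

noncomputable section

section ker

variable {r H H' : ℕ} {sig R τ Y : ℝ} {σ : Sel (Fin r)}

theorem pd_sig (h : 1 ≤ sig) : (sig ^ 2 • (1 : Matrix (Fin r) (Fin r) ℝ)).PosDef :=
  PosDef.one.smul (by positivity)

theorem kr_le (h : 1 ≤ sig) (K : Submodule ℤ (Fin r → ℤ)) (u : Fin r → ℝ) : |kr sig K u| ≤ 1 := by
  have p := th_pos (pd_sig (r := r) h) 0
  rw [kr, abs_div, abs_of_pos p, div_le_one p]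
  exact P057DP.abs_thK_le (pd_sig h) K u

theorem kr_lip (h : 1 ≤ sig) (hσ : σ.Bd H) (hH : sig ^ 2 * R ≤ (H' : ℝ) ^ 2) (hτ : 0 ≤ τ)
    (b v : Fin r → ℝ) (x l : Fin σ.t → ℝ) (hv : ∀ i, toR (σ.b i) ⬝ᵥ v = (σ.D : ℝ) ^ 2 * x i)
    (hn : ∀ i, ∃ n : ℤ, |x i - l i - n| ≤ τ) :
    |kr sig σ.K (v - b) - kr sig σ.K fun j => (∑ i, (σ.D * σ.w i j : ℝ) * l i) - b j| ≤
      2 * π * (r * (cb (Fin r) H * (r * cb (Fin r) H * H') * τ)) +
        2 * (exp (-(π * R / 2)) * √2 ^ r) := by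
  have hG := pd_sig (r := r) h
  have p := th_pos hG 0
  have k1 := P057DP.tl_le hG R
  rw [Fintype.card_fin] at k1
  rw [kr, kr, ← sub_div, abs_div, abs_of_pos p, div_le_iff₀ p]
  refine (P057DP.thK_lip hG _ _ _ (τ := r * (cb (Fin r) H * (r * cb (Fin r) H * H') * τ)) (R := R)
    (by positivity) fun k hk hR => ?_).trans (by linarith)
  choose n hn using hn
  refine ⟨∑ i, σ.D * (σ.w i ⬝ᵥ k) * n i, ?_⟩
  have hD : (σ.D : ℝ) ≠ 0 := Int.cast_ne_zero.2 hσ.hD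
  have e1 : (σ.D : ℝ) • toR k = ∑ a, ((σ.w a ⬝ᵥ k : ℤ) : ℝ) • toR (σ.b a) := by
    funext i
    have := congrArg (fun v : Fin r → ℤ => (v i : ℝ)) (Sel.mem_K.1 hk)
    simpa [Finset.sum_apply] using this
  have e2 : toR k ⬝ᵥ v = ∑ i, σ.D * ((σ.w i ⬝ᵥ k : ℤ) : ℝ) * x i := by
    have e3 := congrArg (· ⬝ᵥ v) e1
    simp only [smul_dotProduct, sum_dotProduct, smul_eq_mul, hv] at e3
    refine mul_left_cancel₀ hD (e3.trans ?_)
    rw [mul_sum]
    exact sum_congr rfl fun i _ => by ring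
  have e4 : (toR k ⬝ᵥ fun j => (∑ i, (σ.D * σ.w i j : ℝ) * l i) - b j) =
      ∑ i, σ.D * ((σ.w i ⬝ᵥ k : ℤ) : ℝ) * l i - toR k ⬝ᵥ b := by
    simp only [dotProduct, mul_sub, sum_sub_distrib, mul_sum, Int.cast_sum, Int.cast_mul, sum_mul,
      toR_apply]
    rw [sum_comm]
    exact congrArg (· - _) (sum_congr rfl fun i _ => sum_congr rfl fun j _ => by ring)
  have hw : ∀ a, |((σ.w a ⬝ᵥ k : ℤ) : ℝ)| ≤ r * cb (Fin r) H * H' := by
    intro a
    have : |σ.w a ⬝ᵥ k| ≤ ∑ _i : Fin r, (cb (Fin r) H : ℤ) * H' :=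
      (abs_sum_le_sum_abs _ _).trans (sum_le_sum fun i _ => by
        rw [abs_mul]
        exact mul_le_mul (hσ.hw a i) (P057DP.entry_le hG (fun i => by simpa using hH) hR i)
          (abs_nonneg _) (by positivity))
    rw [sum_const, card_univ, Fintype.card_fin, nsmul_eq_mul, ← mul_assoc] at this
    exact_mod_cast this
  have hD' : |(σ.D : ℝ)| ≤ cb (Fin r) H := by exact_mod_cast hσ.hD'
  rw [e4, dotProduct_sub, e2, sub_sub_sub_cancel_right, Int.cast_sum, ← sum_sub_distrib,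
    ← sum_sub_distrib]
  refine (abs_sum_le_sum_abs _ _).trans ((sum_le_card_nsmul _ _
    (cb (Fin r) H * (r * cb (Fin r) H * H') * τ : ℝ) fun i _ => ?_).trans ?_)
  · rw [Int.cast_mul, Int.cast_mul, ← mul_sub, ← mul_sub, abs_mul, abs_mul]
    exact mul_le_mul (mul_le_mul hD' (hw i) (abs_nonneg _) (by positivity)) (hn i) (abs_nonneg _)
      (by positivity)
  · rw [card_univ, Fintype.card_fin, nsmul_eq_mul]
    exact mul_le_mul_of_nonneg_right (by simpa using hσ.ht) (by positivity)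

theorem cb_le (hY : 2 ≤ Y) (hr : (r : ℝ) ≤ Y) (hH : (H : ℝ) ≤ exp Y) :
    (cb (Fin r) H : ℝ) ≤ exp (2 * Y ^ 2) := by
  have k : (r.factorial : ℝ) ≤ (r : ℝ) ^ r := by exact_mod_cast Nat.factorial_le_pow r
  rw [cb, Fintype.card_fin, Nat.cast_mul, Nat.cast_pow]
  refine (mul_exp (by positivity) (k.trans (pow_exp (by positivity) (le_exp Y (by linarith))
    (by linarith) hr)) (pow_exp (by positivity) hH (by linarith) hr)).trans (le_of_eq ?_)
  congr 1; ring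

theorem sqrt_two_pow (k : ℕ) : √2 ^ k ≤ exp k := by
  rw [← mul_one (k : ℝ)]
  exact pow_exp (sqrt_nonneg _) (le_exp 1 (by
    rw [sqrt_le_iff]; norm_num)) zero_le_one le_rfl

theorem kr_num (hY : 2 ≤ Y) (hr : (r : ℝ) ≤ Y) (h : 1 ≤ sig) (h' : sig ≤ exp Y) (hσ : σ.Bd H)
    (hH : (H : ℝ) ≤ exp Y) (b v : Fin r → ℝ) (x l : Fin σ.t → ℝ)
    (hv : ∀ i, toR (σ.b i) ⬝ᵥ v = (σ.D : ℝ) ^ 2 * x i)
    (hn : ∀ i, ∃ n : ℤ, |x i - l i - n| ≤ exp (2 * Y - 12 * Y ^ 2)) :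
    |kr sig σ.K (v - b) - kr sig σ.K fun j => (∑ i, (σ.D * σ.w i j : ℝ) * l i) - b j| ≤
      exp (-(5 * Y)) := by
  have a1 := cb_le hY hr hH
  have a2 : (r : ℝ) ≤ exp Y := le_exp Y (by linarith)
  have a3 : (⌈exp (3 * Y)⌉₊ : ℝ) ≤ exp (3 * Y + 1) := by
    have := add_one_le_exp (1 : ℝ)
    have := one_le_exp (by linarith : 0 ≤ 3 * Y)
    rw [exp_add]
    nlinarith [(Nat.ceil_lt_add_one (exp_pos (3 * Y)).le).le]
  have a4 : sig ^ 2 * (8 * Y) ≤ (⌈exp (3 * Y)⌉₊ : ℝ) ^ 2 := by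
    refine le_trans ?_ (pow_le_pow_left₀ (exp_pos _).le (Nat.le_ceil _) 2)
    have b1 : 8 * Y ≤ exp (2 + Y + Y) := by
      rw [exp_add, exp_add]
      have := add_one_le_exp Y
      have := add_one_le_exp (2 : ℝ)
      nlinarith [mul_le_mul this ‹Y + 1 ≤ _› (by linarith) (exp_pos _).le]
    refine (mul_exp (by linarith) (pow_exp (by linarith) h' (by linarith) le_rfl) b1).trans ?_
    rw [← exp_nat_mul]
    exact exp_le_exp.2 (by push_cast; linarith)
  refine (kr_lip h hσ a4 (exp_pos _).le b v x l hv hn).trans ?_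
  have a0 : 2 * π ≤ exp ((3 : ℕ) * 1) := by
    rw [exp_nat_mul]
    linarith [pi_le_four, pow_le_pow_left₀ (by norm_num) (add_one_le_exp (1 : ℝ)) 3]
  have a5 := mul_exp (by positivity) a0
    (mul_exp (by positivity) a2 (mul_exp (exp_pos (2 * Y - 12 * Y ^ 2)).le
      (mul_exp (by positivity) a1 (mul_exp (by positivity) (mul_exp (by positivity) a2 a1) a3))
      le_rfl))
  have a6 := mul_exp (by positivity) (le_rfl (a := exp (-(π * (8 * Y) / 2))))
    ((sqrt_two_pow r).trans (exp_le_exp.2 hr))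
  have a7 : 4 * exp (-(5 * Y) - 3) ≤ exp (-(5 * Y)) := by
    rw [sub_eq_add_neg, exp_add, Real.exp_neg 3, mul_comm, mul_assoc]
    refine mul_le_of_le_one_right (exp_pos _).le ?_
    rw [inv_mul_le_iff₀ (exp_pos _)]
    linarith [add_one_le_exp (3 : ℝ)]
  have a8 := a5.trans (exp_le_exp.2 (show _ ≤ -(5 * Y) - 3 by push_cast; nlinarith))
  have a9 := a6.trans (exp_le_exp.2 (show _ ≤ -(5 * Y) - 3 by nlinarith [pi_gt_three]))
  linarith [exp_pos (-(5 * Y) - 3)]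

end ker

section gen

variable {V ι : Type} [Fintype V] [DecidableEq V] [Fintype ι] [DecidableEq ι] {S : MS V ι}
  {q r : Finset ι} {v : V}

/-- a form that is near an integer form, at a short integer point -/
theorem nf_pt (h : S.Ok) (hc : S.Cen) {Φ : (ι → ℝ) → ℝ} {K ρ : ℝ} {y : ι → ℝ}
    (hn : NF S q {v} Φ K y) (hΦ : Lin (S.st v) Φ) (h0 : 0 < ρ) {x : ι → ℤ}
    (h1 : ∀ j ∉ S.st v, (x j : ℝ) = y j) (h2 : ln2 S (q ∩ S.st v) (toR x) ≤ ρ ^ 2) :
    ∃ n : ℤ, |Φ (toR x) - n| ≤ K * ρ := by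
  obtain ⟨η, a1, a2, a3⟩ := hn
  obtain ⟨n, hn⟩ := a2 x
  rw [P057T1.sts_single] at a3
  have k := a3 (scl S {v} ρ⁻¹ (toR x)) ⟨fun j hj => by
    have hj' : j ∉ S.st v := fun a => (mem_sdiff.1 hj).2 (mem_inter.2 ⟨(mem_sdiff.1 hj).1, a⟩)
    rw [scl, inter_singleton_of_notMem fun e => hj' (S.mem_st.2 e), card_empty, pow_zero, one_mul]
    exact h1 j hj', (ln2_scl h hc {v} (s := ρ⁻¹) (fun i hi => by
      rw [inter_singleton_of_mem (S.mem_st.1 (mem_inter.1 hi).2), card_singleton, pow_one]) _).trans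
      (by rw [inv_pow, inv_mul_le_iff₀ (by positivity)]; linarith)⟩
  rw [lin_scl (θ := Φ) (fun w hw => by rw [mem_singleton.1 hw]; exact hΦ), lin_scl a1.lin,
    card_singleton,
    pow_one, ← mul_sub, abs_mul, abs_of_pos (inv_pos.2 h0), inv_mul_le_iff₀' h0, hn] at k
  exact ⟨n, k⟩

theorem fg_dil (q : Finset ι) (v : V) (ω : ℝ) (y : ι → ℝ) :
    (dil S {v} ω).fg q v y = ω ^ 2 • S.fg q v y := by
  have e : blk (dil S {v} ω).G (q ∩ S.st v) = blk (ω ^ 2 • S.G) (q ∩ S.st v) :=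
    P057T1.blk_gsc S.G fun i hi => by
      rw [inter_singleton_of_mem (S.mem_st.1 (mem_inter.1 hi).2), card_singleton, pow_one]
  rw [← P057LU.fg_nar]
  exact congrArg (fun G => (blk (S.lm v y) _)ᵀ * G * blk (S.lm v y) _) e

theorem blk_dil (q : Finset ι) (v : V) (ω : ℝ) :
    blk (dil S {v} ω).G (q \ S.st v) = blk S.G (q \ S.st v) :=
  (P057T1.blk_gsc S.G (P057LU.pow_nb ω)).trans (by rw [one_pow, one_smul])

theorem vol_dil (h : S.Ok) {ω : ℝ} (hω : 1 ≤ ω) (q : Finset ι) (v : V) (y : ι → ℝ) :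
    vol (ω ^ 2 • S.fg q v y) = vl (dil S {v} ω).G (q ∩ S.st v) :=
  (congrArg vol (fg_dil q v ω y)).symm.trans ((ok_dil h {v} hω).vol_fg q v y)

/-- summation over the narrowed fibres, with moved centres -/
theorem glob (h : S.Ok) (hc : S.Cen) {ω : ℝ} (hω : 1 ≤ ω) {W Φ lo : (ι → ℤ) → ℝ} {C b : ℝ}
    {a : (ι → ℤ) → ↥(q ∩ S.st v) → ℝ}
    (hW : ∀ y, (∀ i ∈ q ∩ S.st v, y i = 0) → ∀ t, W (put _ t y) =
      S.wt (q \ S.st v) y * gs (ω ^ 2 • S.fg q v (toR y)) (toR t - a y))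
    (hΦ : ∀ x, |Φ x| ≤ C) (hs : HasSum (fun y => S.wt (q \ S.st v) y * lo y) b)
    (hlo : ∀ y, (∀ i ∈ S.st v, y i = 0) → lo y ≤ ∑' t : ↥(q ∩ S.st v) → ℤ,
      ng (ω ^ 2 • S.fg q v (toR y)) (toR t - a y) * Φ (put _ t y)) :
    b / vl S.G (q \ S.st v) ≤ ∑' x, W x / vl (dil S {v} ω).G q * Φ x := by
  have hD := ok_dil h {v} hω
  have p1 := vl_pos hD.pd (q ∩ S.st v)
  have p2 := vl_pos h.pd (q \ S.st v)
  have pd : ∀ y, (ω ^ 2 • S.fg q v y).PosDef := fun y => (h.fg_pos q v y).smul (by positivity)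
  have s1 : Summable fun y => S.wt (q \ S.st v) y * th (ω ^ 2 • S.fg q v (toR y)) 0 :=
    (hD.hasSum_th q v).summable.congr fun y => by
      rw [(cen_dil hc {v} ω).fcn, fg_dil]
      exact congrArg (· * _) (MS.wt_gram (blk_dil q v ω) y)
  have s2 : Summable fun x : (ι → ℤ) × (↥(q ∩ S.st v) → ℤ) => S.wt (q \ S.st v) x.1 *
      gs (ω ^ 2 • S.fg q v (toR x.1)) (toR x.2 - a x.1) := by
    refine (summable_prod_of_nonneg fun x => mul_nonneg (MS.wt_nonneg _ _) (gs_pos _ _).le).2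
      ⟨fun y => (summable_gs (pd (toR y)) (a y)).mul_left (S.wt (q \ S.st v) y), ?_⟩
    simp only [tsum_mul_left]
    exact s1.of_nonneg_of_le (fun y => mul_nonneg (MS.wt_nonneg _ _) (th_nonneg _ _)) fun y =>
      mul_le_mul_of_nonneg_left (th_le_th_zero (pd _) _) (MS.wt_nonneg _ _)
  have e0 : ∀ x : ι → ℤ, put (q ∩ S.st v) (fun i => x i) (mix (q ∩ S.st v) 0 x) = x := fun x =>
    funext fun i => by
      by_cases hi : i ∈ q ∩ S.st v
      · exact put_pos _ _ hi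
      · rw [put_neg _ _ hi, mix_neg _ _ hi]
  have e1 := fun x : ι → ℤ => (congrArg W (e0 x)).symm.trans
    (hW (mix (q ∩ S.st v) 0 x) (fun i hi => mix_pos _ _ hi) _)
  have s3 : Summable W := (s2.comp_injective (i := fun x : ι → ℤ =>
    (mix (q ∩ S.st v) 0 x, fun i : ↥(q ∩ S.st v) => x i)) fun x x' e => by
      rw [← e0 x, ← e0 x', (Prod.mk.inj e).1, (Prod.mk.inj e).2]).congr fun x => (e1 x).symm
  have k := hasSum_le (fun y => ?_) (hs.mul_left (vl (dil S {v} ω).G (q ∩ S.st v)))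
    (hasSum_put (q ∩ S.st v) (summable_mul_real s3 (fun x => (e1 x).ge.trans'
      (mul_nonneg (MS.wt_nonneg _ _) (gs_pos _ _).le)) hΦ)).2
  · simp only [div_mul_eq_mul_div, tsum_div_const]
    rw [hD.vl_st q v, show vl (dil S {v} ω).G (q \ (dil S {v} ω).st v) = vl S.G (q \ S.st v) from
      congrArg vol (blk_dil q v ω), ← div_div]
    exact div_le_div_of_nonneg_right ((le_div_iff₀' p1).2 k) p2.le
  · by_cases h0 : S.wt (q \ S.st v) y = 0
    · split_ifs with hy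
      · simp [hW y hy, h0]
      · simp [h0]
    have hy : ∀ i ∈ S.st v, y i = 0 := fun i hi => by_contra fun a =>
      h0 (MS.wt_eq_zero (fun b => (mem_sdiff.1 b).2 hi) a)
    have hy' : ∀ i ∈ q ∩ S.st v, y i = 0 := fun i hi => hy i (mem_inter.1 hi).2
    rw [if_pos hy', mul_left_comm]
    simp only [hW y hy', mul_assoc, tsum_mul_left]
    refine mul_le_mul_of_nonneg_left ((mul_le_mul_of_nonneg_left (hlo y hy) p1.le).trans
      (le_of_eq ?_)) (MS.wt_nonneg _ _)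
    rw [← tsum_mul_left]
    refine tsum_congr fun t => ?_
    rw [ng, vol_dil h hω, ← mul_assoc, mul_div_cancel₀ _ p1.ne']

theorem lm_inv (h : S.Ok) (v : V) (y : ι → ℝ) (r : Finset ι) (u : r → ℝ) :
    blk (S.lm v y) r *ᵥ ((blk (S.lm v y) r)⁻¹ *ᵥ u) = u := by
  rw [mulVec_mulVec, mul_nonsing_inv _ (by simp [(h.uni v y r).det]), one_mulVec]

theorem pos_fib (h : S.Ok) (hc : S.Cen) (hq : S.st v ⊆ q) (y : ι → ℤ) (t : ↥(q ∩ S.st v) → ℤ) :
    (fun i : ↥(q ∩ S.st v) => S.ps (put (q ∩ S.st v) t y) i) =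
      blk (S.lm v (toR y)) _ *ᵥ toR t := by
  rw [h.pos_put q v fun i hi a => absurd (hq hi) a, hc.fcn, sub_zero]

/-- the weight with moved centres along the fibres -/
theorem wsh_put {C : Type} [Fintype C] [DecidableEq C] {S : MS (Option C) ι} (h : S.Ok)
    (hc : S.Cen) {ω : ℝ} (hω : 1 ≤ ω) (hq : S.st none ⊆ q) {a : ι → ℝ}
    (ha : ∀ i ∉ S.st none, a i = 0) {y : ι → ℤ} (hy : ∀ i ∈ q ∩ S.st none, y i = 0)
    (t : ↥(q ∩ S.st none) → ℤ) : wsh (dil S {none} ω) q a (put _ t y) =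
      S.wt (q \ S.st none) y * gs (ω ^ 2 • S.fg q none (toR y))
        (toR t - (blk (S.lm none (toR y)) _)⁻¹ *ᵥ fun i => a i) := by
  have hD := ok_dil h {none} hω
  have k := MS.wt_put (S := ⟨S.fc, S.lv, (dil S {none} ω).G, fun z => S.p z + a⟩) (r := S.st none)
    hD.pd.1 (hD.sat_st none) y hy t fun i hi => congrArg (· + a i) (h.loc i _ _ fun j hj => by
      rw [toR_apply, toR_apply, put_neg _ _ fun b =>
        (mem_sdiff.1 hi).2 (S.mem_st.2 (hj.1 (S.mem_st.1 (mem_inter.1 b).2)))])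
  refine Eq.trans ?_ (k.trans (congrArg₂ (· * ·) ?_ ?_))
  · simp only [wsh, MS.wt, MS.ps, sub_sub]
    rfl
  · refine (MS.wt_congr (S := dil S {none} ω)
      (S' := ⟨S.fc, S.lv, (dil S {none} ω).G, fun z => S.p z + a⟩) rfl (fun z i hi => ?_) y).trans
      (MS.wt_gram (blk_dil q none ω) y)
    change S.p z i + a i = S.p z i
    rw [ha i (mem_sdiff.1 hi).2, add_zero]
  · rw [← fg_dil]
    refine Eq.trans (congrArg (gs _) ?_) (gs_conj (blk (dil S {none} ω).G (q ∩ S.st none))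
      (blk (S.lm none (toR y)) (q ∩ S.st none)) _).symm
    rw [mulVec_sub, lm_inv h, ← pos_fib h hc hq]
    exact funext fun i => (sub_sub _ _ _).symm

/-- most fibres are fine -/
theorem theta_markov (h : S.Ok) (hc : S.Cen) {Z c η : ℝ} (hm : Mg S Z) (hZ : 0 < Z) (h1 : 1 ≤ c)
    (h2 : c ≤ exp Z) (hη : 0 < η) :
    ∑' y, S.wt (univ \ S.st v) y * ind (1 + η < th (c ^ 2 • S.fg univ v (toR y))⁻¹ 0) ≤
      exp (-Z) / η * vl S.G (univ \ S.st v) := by
  have hD := ok_dil h {v} h1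
  have hC := cen_dil hc {v} c
  have k1 : (dil S {v} c).mass univ ≤ 1 + exp (-Z) :=
    (P057T1.mass_gsc h hc (fun i j e => by rw [e]) (fun i => one_le_pow₀ h1) (exp_pos Z)
      (fun i => (pow_le_pow_right₀ h1 ((card_le_card inter_subset_right).trans
        (card_singleton v).le)).trans (by rwa [pow_one])) univ).trans
      (Smo.mass h hc (cls_univ S) hm (Nat.ceil_pos.2 hZ) (exp_pos Z).ne')
  have k2 := hD.one_le_mass hC (((cls_univ _).sdiff_st v).sat hD)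
  have k3 := hasSum_le (fun y => ?_) ((h.summable_re (univ \ S.st v) fun y =>
    abs_ind (1 + η < th (c ^ 2 • S.fg univ v (toR y))⁻¹ 0)).hasSum.mul_left η)
    (hD.hasSum_defect hC univ v)
  · rw [show vl (dil S {v} c).G (univ \ (dil S {v} c).st v) = vl S.G (univ \ S.st v) from
      congrArg vol (blk_dil univ v c)] at k3
    rw [div_mul_eq_mul_div, le_div_iff₀' hη]
    exact k3.trans (mul_le_mul_of_nonneg_right (by linarith) (vl_pos h.pd _).le)
  · rw [show (dil S {v} c).wt (univ \ (dil S {v} c).st v) y = S.wt (univ \ S.st v) y from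
      MS.wt_gram (blk_dil univ v c) y, mul_left_comm, fg_dil]
    refine mul_le_mul_of_nonneg_left ?_ (MS.wt_nonneg _ _)
    change _ ≤ th (c ^ 2 • S.fg univ v (toR y))⁻¹ 0 - 1
    by_cases a : 1 + η < th (c ^ 2 • S.fg univ v (toR y))⁻¹ 0
    · rw [ind_pos a]; linarith
    · have := one_le_th_zero ((h.fg_pos univ v (toR y)).smul (by positivity : 0 < c ^ 2)).inv
      rw [ind_neg a]; linarith

/-- the fibres against a function with a bounded second moment -/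
theorem theta_mom (h : S.Ok) (hc : S.Cen) (hq : Cls S q) {Z c C B : ℝ} (hm : Mg S Z) (hZ : 3 ≤ Z)
    (h1 : 1 ≤ c) (h2 : c ≤ exp Z) {g : (ι → ℤ) → ℝ} (g0 : ∀ y, 0 ≤ g y) (gC : ∀ y, g y ≤ C)
    (hB : ∑' y, S.wt (q \ S.st v) y * g y ^ 2 ≤ B * vl S.G (q \ S.st v)) :
    ∃ a ≤ (1 + B / 2) * vl S.G (q \ S.st v), HasSum (fun y => S.wt (q \ S.st v) y *
      (th (c ^ 2 • S.fg q v (toR y))⁻¹ 0 * g y)) a := by
  have k1 := P057LU.cube_mass h hc hq v h1
  have k2 := P057PI.mass_qC (c0 := (0 : Fin 3)) h hc ⟨hq.blk, hq.dep⟩ v (exp_pos Z).ne'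
    (Smo.mono h hc (cls_univ S) hq hm (subset_univ q) le_rfl (exp_pos Z) le_rfl le_rfl)
    (by simpa using Nat.ceil_mono hZ)
  have k3 := P057T1.mass_gsc (ok_blow h (0 : Fin 3)) (cen_blow hc _)
    (s := P057PI.sg S 0 v fun _ : Fin 3 => c) (fun i j e => by
      simp only [P057PI.sg]
      rw [show S.fc i.1.1 = S.fc j.1.1 from
        Subset.antisymm (fc_blow_sub.1 e.le).1 (fc_blow_sub.1 e.ge).1])
    (fun i => by simp only [P057PI.sg]; split_ifs <;> linarith) (exp_pos Z) (fun i => by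
      simp only [P057PI.sg]; split_ifs <;> linarith) (P057PI.qC S 0 q v)
  have k4 := (h.summable_re (q \ S.st v) (f := fun y => g y ^ 2) (C := C ^ 2) fun y => by
    rw [abs_of_nonneg (sq_nonneg _)]; exact pow_le_pow_left₀ (g0 y) (gC y) 2).hasSum
  have k5 := (k1.add k4).div_const 2
  have t1 : ∀ y : ι → ℤ, 1 ≤ th (c ^ 2 • S.fg q v (toR y))⁻¹ 0 := fun y =>
    one_le_th_zero ((h.fg_pos q v (toR y)).smul (by positivity : 0 < c ^ 2)).inv
  have k6 : ∀ y : ι → ℤ, S.wt (q \ S.st v) y * (th (c ^ 2 • S.fg q v (toR y))⁻¹ 0 * g y) ≤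
      (S.wt (q \ S.st v) y * th (c ^ 2 • S.fg q v (toR y))⁻¹ 0 ^ 3 +
        S.wt (q \ S.st v) y * g y ^ 2) / 2 := fun y => by
    rw [← mul_add, mul_div_assoc]
    refine mul_le_mul_of_nonneg_left ?_ (MS.wt_nonneg _ _)
    nlinarith [sq_nonneg (th (c ^ 2 • S.fg q v (toR y))⁻¹ 0 - g y),
      pow_le_pow_right₀ (t1 y) (by norm_num : 2 ≤ 3)]
  have k7 := k5.summable.of_nonneg_of_le (fun y => mul_nonneg (MS.wt_nonneg _ _)
    (mul_nonneg (zero_le_one.trans (t1 y)) (g0 y))) k6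
  refine ⟨_, (hasSum_le k6 k7.hasSum k5).trans ?_, k7.hasSum⟩
  have k8 := mul_le_mul_of_nonneg_right ((k3.trans k2).trans (by
    linarith [exp_le_one_iff.2 (by linarith : -Z ≤ 0)] : 1 + exp (-Z) ≤ 2)) (vl_pos h.pd (q \ S.st v)).le
  have k9 : (P057PI.dup S 0 (P057PI.sg S 0 v fun _ : Fin 3 => c)).mass (P057PI.qC S 0 q v) *
    vl S.G (q \ S.st v) ≤ 2 * vl S.G (q \ S.st v) := k8
  linarith

/-- passage to the core: the coordinates in `r` lie on top -/
theorem core_den (h : S.Ok) (hr : Sat S.G r) (hup : ∀ j ∈ r, ∀ i ∉ r, S.lv i < S.lv j)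
    (P : (ι → ℤ) → Prop) : (∑' z, S.wt q z * ind (P z)) / vl S.G q ≤ cx S.G (q ∩ r) *
      ((∑' y, S.wt (q \ r) y * ind (∃ z, (∀ i ∉ r, z i = y i) ∧ P z)) / vl S.G (q \ r)) := by
  have hb := posDef_blk h.pd (q ∩ r)
  have p1 := vl_pos h.pd (q ∩ r)
  have k := MS.hasSum_split (S := S) (q := q) (r := r)
    (g := fun y x => gs (blk S.G (q ∩ r)) fun i => S.ps (put (q ∩ r) x y) i)
    (fun y hy x => MS.wt_put h.pd.1 hr y hy x fun i hi => h.loc i _ _ fun j hj => by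
      rw [toR_apply, toR_apply, put_neg _ _ fun a =>
        lt_asymm hj.2 (hup j (mem_inter.1 a).2 i (mem_sdiff.1 hi).2)])
    (F := fun z => ind (P z)) (h.summable_re q fun z => abs_ind (P z))
  have k1 := hasSum_le (fun y => ?_) k ((h.summable_re (q \ r) fun y =>
    abs_ind (∃ z, (∀ i ∉ r, z i = y i) ∧ P z)).hasSum.mul_left (vl S.G (q ∩ r) * cx S.G (q ∩ r)))
  · rw [vl_split h.pd hr q, ← div_div, ← mul_div_assoc]
    refine div_le_div_of_nonneg_right ?_ (vl_pos h.pd _).le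
    rw [div_le_iff₀' p1, ← mul_assoc]
    exact k1
  · rw [smul_eq_mul, mul_left_comm]
    refine mul_le_mul_of_nonneg_left ?_ (MS.wt_nonneg _ _)
    have ht : Tri (fun i : ↥(q ∩ r) => S.lv i) fun x i => S.p (toR (put (q ∩ r) x y)) i :=
      fun i x x' e => h.loc i _ _ fun j hj => by
        by_cases a : j ∈ q ∩ r
        · rw [toR_apply, toR_apply, put_pos _ _ a, put_pos _ _ a, e ⟨j, a⟩ hj.2]
        · rw [toR_apply, toR_apply, put_neg _ _ a, put_neg _ _ a]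
    have e : ∀ x : ↥(q ∩ r) → ℤ, (fun i : ↥(q ∩ r) => S.ps (put (q ∩ r) x y) i) =
        toR x - fun i : ↥(q ∩ r) => S.p (toR (put (q ∩ r) x y)) i := fun x => funext fun i => by
      rw [MS.ps, Pi.sub_apply, Pi.sub_apply, toR_apply, toR_apply, put_coe]
    have m := ms_tri_le hb (fun i j a => by_contra fun b => a (h.orth i j b).2) ht
    rw [ms_zero hb, ms] at m
    simp only [ng, tsum_div_const] at m
    simp only [e, smul_eq_mul]
    by_cases a : ∃ z, (∀ i ∉ r, z i = y i) ∧ P z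
    · rw [ind_pos a, mul_one]
      refine le_trans (Summable.tsum_le_tsum (fun x => mul_le_of_le_one_right (gs_pos _ _).le
        (ind_le _)) (summable_mul_real (ht.summable hb) (fun _ => (gs_pos _ _).le) fun x =>
          abs_ind _) (ht.summable hb)) ((div_le_iff₀' p1).1 m)
    · have : ∀ x, ind (P (put (q ∩ r) x y)) = 0 := fun x => ind_neg fun b =>
        a ⟨_, fun i hi => put_neg _ _ fun c => hi (mem_inter.1 c).2, b⟩
      simp [this, ind_neg a]

end gen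

end

end Vale.Agent.P057AS
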