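import Vale.Agent.P057AS.Ker
import Vale.Agent.P057IV.Den

/-!
The good points of the core, and the fibre over a point of the core.
-/

set_option linter.all false

open Matrix Finset Real
open Vale.Agent.P267.H775 Vale.Agent.P057G Vale.Agent.P057PC Vale.Agent.P057SH Vale.Agent.P057MA
open Vale.Agent.P057TP Vale.Agent.P057SG
open Vale.Agent.P057ST (mR toR_mulVec)
open Vale.Agent.P057T1 (ind ind_pos ind_neg ind_nonneg ind_le abs_ind NF)
open Vale.Agent.P057DP (Sel cb)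
open Vale.Agent.P057IV (Mg den Ty Nr)
open Vale.Agent.P057DR (mul_exp pow_exp le_exp)

namespace Vale.Agent.P057AS

noncomputable section

theorem seven_le {Y : ℝ} (hY : 2 ≤ Y) : 7 ≤ exp Y := by
  have h := exp_one_gt_d9
  have : exp 1 * exp 1 ≤ exp Y := by rw [← exp_add]; exact exp_le_exp.2 (by linarith)
  nlinarith

theorem qq_sub_two {L : Type} [Fintype L] {G : Matrix L L ℝ} (hG : G.PosSemidef) (u v : L → ℝ) :
    qq G (u - v) ≤ 2 * qq G u + 2 * qq G v := by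
  linarith [qq_sub hG.1 u v, qq_add hG.1 u v, qq_nonneg hG (u + v)]

/-- a multiple of the restriction of a matrix -/
def mx {L ι R : Type} [Mul R] (Q : Matrix L ι R) (K : Finset ι) (d : R) : Matrix L K R :=
  of fun l i => d * Q l i

theorem mx_mul {L ι R : Type} [Fintype ι] [DecidableEq ι] [CommRing R] {Q : Matrix L ι R}
    {K : Finset ι} (h : ∀ l i, Q l i ≠ 0 → i ∈ K) (d : R) (x : ι → R) :
    mx Q K d *ᵥ (fun i => x i) = d • Q *ᵥ x := by
  funext l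
  simp only [mx, mulVec, dotProduct, of_apply, Pi.smul_apply, smul_eq_mul, mul_sum, mul_assoc]
  rw [sum_coe_sort K fun i => d * (Q l i * x i)]
  exact sum_subset (subset_univ K) fun i _ hi => by
    rw [not_not.1 (mt (h l i) hi), zero_mul, mul_zero]

theorem mR_mx {L ι : Type} (Q : Matrix L ι ℤ) (K : Finset ι) (d : ℕ) :
    mR (mx Q K d) = mx (mR Q) K d := by
  ext l i; simp [mR, mx]

variable {n p s τ : ℕ} {ι : Type} [Fintype ι] [DecidableEq ι] {S : MS (Option (Fin n)) ι}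
  {ex q : Finset ι} {A Y γ ω N : ℝ}

theorem mem_BB {i : ι} : i ∈ fce S (BB n) ↔ i ∉ S.st none := by
  rw [mem_fce, S.mem_st, BB, subset_erase]; simp

theorem fce_BB : fce S (BB n) = univ \ S.st none := by ext i; simp [mem_BB]

theorem core_BB : (univ \ ex) \ S.st none = fce S (BB n) \ ex := by
  ext i; simp [mem_BB, and_comm]

theorem Ext.cls (h : Ext S ex τ A) : Cls S (univ \ ex) :=
  ⟨fun i j _ e hi => mem_sdiff.2 ⟨mem_univ _, fun hj => (h.up j hj i (mem_sdiff.1 hi).2).ne e⟩,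
    fun i hi j e => mem_sdiff.2 ⟨mem_univ _, fun hj =>
      lt_asymm e.2 (h.up j hj i (mem_sdiff.1 hi).2)⟩⟩

theorem Ext.sat (h : Ext S ex τ A) (hS : S.Ok) : Sat S.G ex :=
  hS.sat fun i j _ e hi => by_contra fun hj => (h.up i hi j hj).ne' e

theorem Ext.off (h : Ext S ex τ A) {i : ι} (hi : i ∈ S.st none) : i ∉ ex :=
  fun a => h.nt i a (S.mem_st.1 hi)

theorem Ext.sub (h : Ext S ex τ A) : S.st none ⊆ univ \ ex :=
  fun _ hi => mem_sdiff.2 ⟨mem_univ _, h.off hi⟩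

theorem Ext.mem (h : Ext S ex τ A) {i : ι} : i ∈ (univ \ ex) ∩ S.st none ↔ i ∈ S.st none :=
  ⟨fun a => (mem_inter.1 a).2, fun a => mem_inter.2 ⟨h.sub a, a⟩⟩

theorem Ext.fg (h : Ext S ex τ A) (hS : S.Ok) (q : Finset ι) {y y' : ι → ℝ}
    (e : ∀ i ∉ ex, y i = y' i) : S.fg q none y = S.fg q none y' := by
  have k : ∀ x, ∀ i ∈ S.st none, S.p (mix (S.st none) x y) i = S.p (mix (S.st none) x y') i :=
    fun x i hi => hS.loc i _ _ fun j hj => by
      by_cases a : j ∈ S.st none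
      · rw [mix_pos _ _ a, mix_pos _ _ a]
      · rw [mix_neg _ _ a, mix_neg _ _ a, e j fun b => lt_asymm hj.2 (h.up j b i (h.off hi))]
  have : blk (S.lm none y) (q ∩ S.st none) = blk (S.lm none y') (q ∩ S.st none) := by
    ext i j
    simp only [blk, MS.lm, submatrix_apply, Matrix.sub_apply, of_apply, slp,
      k _ i (mem_inter.1 i.2).2]
  rw [MS.fg, MS.fg, this]

/-- the dual theta value of the fibre over `y` -/
def tht (S : MS (Option (Fin n)) ι) (q : Finset ι) (ω : ℝ) (y : ι → ℤ) : ℝ :=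
  th ((2 * ω) ^ 2 • S.fg q none (toR y))⁻¹ 0

theorem Ext.tht_eq (h : Ext S ex τ A) (y : ι → ℤ) : tht S (univ \ ex) ω y = tht S univ ω y := by
  have e : (univ \ ex) ∩ S.st none = univ ∩ S.st none := by ext i; rw [h.mem]; simp
  have k : ∀ r r' : Finset ι, r = r' → th ((2 * ω) ^ 2 • ((blk (S.lm none (toR y)) r)ᵀ *
      blk S.G r * blk (S.lm none (toR y)) r))⁻¹ 0 = th ((2 * ω) ^ 2 •
        ((blk (S.lm none (toR y)) r')ᵀ * blk S.G r' * blk (S.lm none (toR y)) r'))⁻¹ 0 :=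
    fun r r' e => by subst e; rfl
  unfold tht MS.fg
  exact k _ _ e

/-- good points -/
def Gd (S : MS (Option (Fin n)) ι) (ex : Finset ι) (E : (ι → ℝ) → Prop) (ω Y : ℝ) (z : ι → ℤ) :
    Prop := E (toR z) ∧ tht S (univ \ ex) ω z ≤ 1 + exp (-(5 * Y)) ∧
      ln2 S (fce S (BB n)) (toR z) ≤ exp Y ^ 2

theorem den_good (h : Ext S ex τ A) (hS : S.Ok) (hc : S.Cen) (hY : 2 ≤ Y) (h1 : 1 ≤ ω)
    (h2 : 2 * ω ≤ exp (Y ^ 6)) (hm : Mg S (Y ^ 6)) (hι : (Fintype.card ι : ℝ) ≤ exp Y)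
    {E : (ι → ℝ) → Prop} (hE : exp (-Y) ≤ den S (BB n) E) :
    exp (-Y) / 2 * vl S.G (fce S (BB n) \ ex) ≤ exp A * ∑' y, S.wt (fce S (BB n) \ ex) y *
      ind (∃ z, (∀ i ∉ ex, z i = y i) ∧ Gd S ex E ω Y z) := by
  have p1 := vl_pos hS.pd (fce S (BB n))
  have p2 := vl_pos hS.pd (fce S (BB n) \ ex)
  have y6 : 32 * Y ≤ Y ^ 6 := by
    nlinarith [pow_le_pow_left₀ zero_le_two hY 5]
  have hP := seven_le hY
  have k1 := core_den (q := fce S (BB n)) hS (h.sat hS) h.up (Gd S ex E ω Y)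
  rw [inter_eq_right.2 fun i hi => mem_BB.2 fun a => h.off a hi] at k1
  have k2 := theta_markov (v := none) hS hc hm (by linarith) (by linarith : 1 ≤ 2 * ω) h2
    (exp_pos (-(5 * Y)))
  rw [← fce_BB, ← exp_sub] at k2
  have k3 := tail_cen hS hc (fce S (BB n)) (exp Y ^ 2)
  have k4 := low3 (hS.summable (fce S (BB n))) (MS.wt_nonneg _)
    (fun z => abs_ind (Gd S ex E ω Y z)) (fun z => abs_ind (E (toR z)))
    (fun z => abs_ind (1 + exp (-(5 * Y)) < tht S univ ω z))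
    (g₃ := fun z => if exp Y ^ 2 ≤ ln2 S (fce S (BB n)) (toR z) then 1 else 0) (C₃ := 1)
    (fun z => by split_ifs <;> simp) 1 1 fun z => by
      have := ind_le (E (toR z))
      have := ind_nonneg (Gd S ex E ω Y z)
      have := ind_nonneg (1 + exp (-(5 * Y)) < tht S univ ω z)
      split_ifs with a
      · linarith
      by_cases b : 1 + exp (-(5 * Y)) < tht S univ ω z
      · rw [ind_pos b]; linarith
      · have := P057T1.ind_mono (p := E (toR z)) (r := Gd S ex E ω Y z) fun c =>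
          ⟨c, (h.tht_eq z).trans_le (not_lt.1 b), (not_le.1 a).le⟩
        linarith
  have e4 : ∀ x, x ≤ -Y - 3 → 4 * exp x ≤ exp (-Y) := fun x hx => by
    have a := exp_le_exp.2 hx
    rw [exp_sub, le_div_iff₀ (exp_pos _)] at a
    nlinarith [add_one_le_exp (3 : ℝ), exp_pos x]
  have k5 := mul_le_mul_of_nonneg_right (e4 (-Y ^ 6 - -(5 * Y)) (by linarith)) p1.le
  have k6 : exp (-(π * exp Y ^ 2 / 2)) * √2 ^ (fce S (BB n)).card * S.mass (fce S (BB n)) ≤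
      exp (-(π * exp Y ^ 2 / 2) + exp Y + 1) :=
    mul_exp (hS.mass_nonneg _) (mul_exp (by positivity) le_rfl ((sqrt_two_pow _).trans
      (exp_le_exp.2 ((Nat.cast_le.2 (card_le_univ _)).trans hι)))) (le_exp 1 (by
        linarith [P057IV.Mg.mass hS hc hm (by linarith) (cls_fce S (BB n)),
          exp_le_one_iff.2 (by linarith : -Y ^ 6 ≤ 0)]))
  have k7 := e4 (-(π * exp Y ^ 2 / 2) + exp Y + 1) (by
    nlinarith [mul_le_mul_of_nonneg_right pi_gt_three.le (sq_nonneg (exp Y)), add_one_le_exp Y])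
  have k8 := mul_le_mul_of_nonneg_right (show 4 * (exp (-(π * exp Y ^ 2 / 2)) *
    √2 ^ (fce S (BB n)).card * S.mass (fce S (BB n))) ≤ exp (-Y) by linarith) p1.le
  rw [den, le_div_iff₀ p1] at hE
  rw [← le_div_iff₀ p2, mul_div_assoc]
  refine le_trans ?_ (k1.trans (mul_le_mul_of_nonneg_right h.cx (div_nonneg (tsum_nonneg fun y =>
    mul_nonneg (MS.wt_nonneg _ _) (ind_nonneg _)) p2.le)))
  rw [le_div_iff₀ p1]
  simp only [tht] at k4
  linarith

variable {R : Type} [Fintype R] [DecidableEq R] {T : Tow} {Z : Sys T (Uv n p R) Unit}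
  {φ : (ι → ℝ) → Lu T n p R → ℝ} {Q : Matrix (Lg T n p R) ι ℤ} {c0 : (ι → ℤ) → ι → ℝ} {d : ℕ}

theorem Sk.mem (h : Sk Z γ S ex φ Q) (hE : Ext S ex τ A) (l : Lg T n p R) (i : ι)
    (hi : Q l i ≠ 0) : i ∈ (univ \ ex) ∩ S.st none := hE.mem.2 (S.mem_st.2 (h.sup l i hi))

theorem Sk.mem' (h : Sk Z γ S ex φ Q) (hE : Ext S ex τ A) (l : Lg T n p R) (i : ι)
    (hi : mR Q l i ≠ 0) : i ∈ (univ \ ex) ∩ S.st none :=
  h.mem hE l i (Int.cast_ne_zero.1 hi)

theorem Sk.put (h : Sk Z γ S ex φ Q) (t : ↥(q ∩ S.st none) → ℤ) (y : ι → ℤ) :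
    rp (φ (toR (put _ t y))) = rp (φ (toR y)) :=
  h.onw _ _ fun i _ hi => by
    rw [toR_apply, toR_apply, put_neg _ _ fun a => hi (S.mem_st.1 (mem_inter.1 a).2)]

theorem Sk.mx (h : Sk Z γ S ex φ Q) (hE : Ext S ex τ A) (d : ℕ) (t : ↥((univ \ ex) ∩ S.st none) → ℤ)
    (y : ι → ℤ) : toR (mx Q _ (d : ℤ) *ᵥ t) = (d : ℝ) • mR Q *ᵥ toR (P057G.put _ t y) := by
  rw [toR_mulVec, mR_mx, ← mx_mul (h.mem' hE)]
  exact congrArg _ (funext fun i => by rw [toR_apply, toR_apply, put_coe])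

theorem wT_shift {w : Pg T n p R → ℤ} (hl : IsLinearMap ℝ fun z => cL Z w z - cL Z w 0)
    (γ : ℝ) (z₀ : Lg T n p R → ℤ) (g : (Lg T n p R → ℤ) → ℝ) :
    ∑' t, wT Z γ w t * g (z₀ + t) = ∑' x, ng (γ • bk (Gam T cU Unit (n + 2)) Li)
      (toR x - cL Z w (toR x) - (toR z₀ - cL Z w (toR z₀))) * g x := by
  rw [← (Equiv.addLeft z₀).tsum_eq fun x => ng (γ • bk (Gam T cU Unit (n + 2)) Li)
    (toR x - cL Z w (toR x) - (toR z₀ - cL Z w (toR z₀))) * g x]
  refine tsum_congr fun t => ?_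
  have e : toR (z₀ + t) = toR z₀ + toR t := funext fun l => by simp
  have k := hl.map_add (toR z₀) (toR t)
  rw [Equiv.coe_addLeft, wT, e, eq_add_of_sub_eq k]
  congr 2
  abel

/-- the fibre over a point of the core -/
theorem fb_of (hT : T.Ok s N) (hZ : Z.Ok) (hS : S.Ok) (hc : S.Cen) (h : Sk Z γ S ex φ Q)
    (hE : Ext S ex τ A) (hd : 0 < d) (y : ι → ℤ) (c : ι → ℝ)
    (hl : IsLinearMap ℝ fun z => cL Z (rp (φ (toR y))) z - cL Z (rp (φ (toR y))) 0) :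
    Fb (fun l : Lg T n p R => T.lv l.1.cd) (fun z => cL Z (rp (φ (toR y))) (toR z))
      (fun z => cL Z (rp (φ (toR y))) (toR z) - mR Q *ᵥ c) (mx Q ((univ \ ex) ∩ S.st none) d)
      (blk (S.lm none (toR y)) _)
      ((blk (S.lm none (toR y)) _)⁻¹ *ᵥ fun i => ((d : ℝ)⁻¹ • c) i) := by
  refine ⟨P057DR.tri_L hT hZ _, by
    simpa only [sub_eq_add_neg] using tri_add (P057DR.tri_L hT hZ _) _, (hS.uni _ _ _).det,
    fun z t => ?_⟩
  have e : toR (z + mx Q _ (d : ℤ) *ᵥ t) = toR z + toR (mx Q _ (d : ℤ) *ᵥ t) :=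
    funext fun l => by simp
  have k1 := hl.map_add (toR z) ((d : ℝ) • mR Q *ᵥ toR (put _ t y))
  have k2 := h.pos (put _ t y)
  rw [h.put] at k2
  rw [hl.map_smul, k2] at k1
  have k3 := mx_mul (h.mem' hE) d (S.ps (put _ t y) - (d : ℝ)⁻¹ • c)
  rw [e, h.mx hE d t y, eq_add_of_sub_eq k1, mulVec_sub, lm_inv hS, ← pos_fib hS hc hE.sub, mR_mx]
  refine Eq.trans ?_ (congrArg _ k3.symm)
  rw [MS.ps, mulVec_sub, mulVec_sub, mulVec_smul, smul_sub, smul_sub, smul_smul,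
    mul_inv_cancel₀ (Nat.cast_ne_zero.2 hd.ne'), one_smul]
  abel

theorem nrm_of (h : Sk Z γ S ex φ Q) (hE : Ext S ex τ A) (hS : S.Ok)
    (hω : 5 * ((d : ℝ) ^ 2 * Fintype.card ι) ≤ ω ^ 2) (u : ↥((univ \ ex) ∩ S.st none) → ℝ) :
    5 * (γ * qq (bk (Gam T cU Unit (n + 2)) Li) (mR (mx Q _ (d : ℤ)) *ᵥ u)) ≤
      qq (ω ^ 2 • blk S.G _) u := by
  have e : (fun i : ↥((univ \ ex) ∩ S.st none) => msk ((univ \ ex) ∩ S.st none) (put _ u 0) i) =
      u := funext fun i => by rw [msk_pos _ i.2, put_coe]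
  have k := h.nrm (msk ((univ \ ex) ∩ S.st none) (put _ u 0))
  rw [qq_msk, show (fun i : ↥((univ \ ex) ∩ S.st none) => put _ u 0 (i : ι)) = u from
    funext fun i => put_coe _ _ i] at k
  have e2 := mx_mul (h.mem' hE) d (msk ((univ \ ex) ∩ S.st none) (put _ u 0))
  rw [e] at e2
  rw [mR_mx, e2, qq_smul, qq_smul_mat]
  nlinarith [mul_le_mul_of_nonneg_left k (sq_nonneg (d : ℝ)), mul_le_mul_of_nonneg_right hω
    (qq_nonneg (posDef_blk hS.pd _).posSemidef u)]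

/-- replacement of the kernel on the fibre over a good point -/
theorem ker_of (hS : S.Ok) (hc : S.Cen) (h : Sk Z γ S ex φ Q) (hE : Ext S ex τ A) {r H : ℕ}
    {sig : ℝ} {σ : Sel (Fin r)} (hY : 2 ≤ Y) (hr : (r : ℝ) ≤ Y) (h1 : 1 ≤ sig) (h2 : sig ≤ exp Y)
    (hσ : σ.Bd H) (hH : (H : ℝ) ≤ exp Y)
    {ξ : (Pg T n p R → ℤ) → Matrix (Fin r) (Lg T n p R) ℝ} {L : Fin σ.t → (ι → ℝ) → ℝ}
    (hL : ∀ a, Ty S {none} (BB n) (L a)) {z : ι → ℤ} (hn : ∀ a, Nr S {none} (BB n)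
      (fun w => d * fm (frq σ ξ a) (φ w) - L a w) (exp Y) (toR z))
    {t t₀ : ↥((univ \ ex) ∩ S.st none) → ℤ} {a : ↥((univ \ ex) ∩ S.st none) → ℝ}
    (k1 : qq (exp (13 * Y ^ 2) ^ 2 • S.fg _ none (toR z)) (toR t - a) ≤ exp Y ^ 2)
    (k2 : qq (exp (13 * Y ^ 2) ^ 2 • S.fg _ none (toR z)) (toR t₀ - a) ≤ exp Y ^ 2)
    (v : Lg T n p R → ℤ) :
    |kr sig σ.K (ξ (rp (φ (toR z))) *ᵥ toR (v + mx Q _ ((d * σ.D.natAbs ^ 2 : ℕ) : ℤ) *ᵥ t)) -
      kr sig σ.K fun j => (∑ i, (σ.D * σ.w i j : ℝ) * L i (toR (put _ t z))) -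
        ((∑ i, (σ.D * σ.w i j : ℝ) * L i (toR (put _ t₀ z))) - (ξ (rp (φ (toR z))) *ᵥ
          toR (v + mx Q _ ((d * σ.D.natAbs ^ 2 : ℕ) : ℤ) *ᵥ t₀)) j)| ≤ exp (-(5 * Y)) := by
  have e1 : ∀ t : ↥((univ \ ex) ∩ S.st none) → ℤ,
      toR (put _ t z) = mix (S.st none) (put _ (toR t) 0) (toR z) := fun t => funext fun i => by
    by_cases b : i ∈ S.st none
    · rw [mix_pos _ _ b, toR_apply, put_pos _ _ (hE.mem.2 b), put_pos _ _ (hE.mem.2 b), toR_apply]
    · rw [mix_neg _ _ b, toR_apply, toR_apply, put_neg _ _ fun c => b (hE.mem.1 c)]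
  have e2 : ∀ i, L i (toR (put _ (t - t₀) z)) = L i (toR (put _ t z)) - L i (toR (put _ t₀ z)) :=
    fun i => by
      rw [e1, e1, e1, ← ((hL i).lin none (mem_singleton_self _) (toR z)).map_sub]
      congr 2
      funext j
      by_cases b : j ∈ (univ \ ex) ∩ S.st none
      · simp [put_pos _ _ b]
      · simp [put_neg _ _ b]
  have e3 : ∀ (ψ : (Pg T n p R → ℤ) → Lg T n p R → ℝ) x y,
      fm ψ (φ (mix (S.st none) x y)) = ψ (rp (φ y)) ⬝ᵥ mR Q *ᵥ x := fun ψ x y => by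
    rw [fm, h.onw _ y fun i _ hi => mix_neg _ _ fun b => hi (S.mem_st.1 b), funext (h.rl _),
      ← one_smul ℝ (mR Q *ᵥ x), ← mx_mul (h.mem' hE), ← one_smul ℝ (mR Q *ᵥ _),
      ← mx_mul (h.mem' hE)]
    exact congrArg (fun u => _ ⬝ᵥ _ *ᵥ u) (funext fun i => mix_pos _ _ (hE.mem.1 i.2))
  have p1 : 0 < exp (13 * Y ^ 2) := exp_pos _
  have k := kr_num hY hr h1 h2 hσ hH (-(ξ (rp (φ (toR z))) *ᵥ
      toR (v + mx Q _ ((d * σ.D.natAbs ^ 2 : ℕ) : ℤ) *ᵥ t₀)))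
    (ξ (rp (φ (toR z))) *ᵥ toR (mx Q _ ((d * σ.D.natAbs ^ 2 : ℕ) : ℤ) *ᵥ (t - t₀)))
    (fun i => d * fm (frq σ ξ i) (φ (toR (put _ (t - t₀) z))))
    (fun i => L i (toR (put _ (t - t₀) z))) (fun i => by
      rw [h.mx hE _ _ z, fm, h.put, funext (h.rl _), frq, dotProduct_mulVec, dotProduct_smul,
        smul_eq_mul, Nat.cast_mul, Nat.cast_pow, Nat.cast_natAbs, Int.cast_abs, sq_abs]
      ring) fun i => by
      obtain ⟨m, hm⟩ := nf_pt hS hc (hn i) (fun y => by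
          simpa only [e3, one_mul, neg_mul, ← sub_eq_add_neg] using lin_comb (r := S.st none)
            (f := fun w => fm (frq σ ξ i) (φ w)) (fun y => by
              simp only [e3]
              exact ⟨fun _ _ => by rw [mulVec_add, dotProduct_add],
                fun _ _ => by rw [mulVec_smul, dotProduct_smul]⟩)
            ((hL i).lin none (mem_singleton_self _)) d (-1) y)
        (ρ := 2 * exp Y / exp (13 * Y ^ 2)) (by positivity) (x := put _ (t - t₀) z)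
        (fun j hj => by rw [put_neg _ _ fun c => hj (hE.mem.1 c), toR_apply]) (by
          have b1 := qq_sub_two (((hS.fg_pos (univ \ ex) none (toR z)).smul
            (pow_pos p1 2)).posSemidef) (toR t - a) (toR t₀ - a)
          have b2 : toR t - a - (toR t₀ - a) = toR (t - t₀) := funext fun j => by simp
          rw [b2, qq_smul_mat, P057LU.qq_fg hS hc hE.cls, ← toR_put] at b1
          rw [show fce S ({none} ∪ BB n) ∩ S.st none = (univ \ ex) ∩ S.st none from by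
            ext j; simp [hE.mem, mem_fce, BB], div_pow, le_div_iff₀' (pow_pos p1 2)]
          linarith)
      refine ⟨m, hm.trans ?_⟩
      rw [show 2 * Y - 12 * Y ^ 2 = Y ^ 2 + Y + Y - 13 * Y ^ 2 by ring, exp_sub, exp_add, exp_add,
        ← mul_div_assoc, mul_comm (exp Y)]
      gcongr
      exact le_exp _ (by nlinarith)
  convert k using 4
  · rw [sub_neg_eq_add, ← mulVec_add]
    exact congrArg _ (funext fun l => by simp [mulVec_sub, add_comm])
  · funext j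
    simp only [e2, mul_sub, sum_sub_distrib, Pi.neg_apply]
    ring

end

end Vale.Agent.P057AS
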