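import Vale.Agent.P057AS.Loc

/-!
The intermediate state.
-/

set_option linter.all false

open Matrix Finset Real
open Vale.Agent.P267.H775 Vale.Agent.P057G Vale.Agent.P057PC Vale.Agent.P057SH Vale.Agent.P057MA
open Vale.Agent.P057TP Vale.Agent.P057SG
open Vale.Agent.P057ST (mR toR_mulVec)
open Vale.Agent.P057T1 (ind ind_pos ind_neg ind_nonneg ind_le abs_ind NF)
open Vale.Agent.P057DP (Sel cb)
open Vale.Agent.P057IV (Mg den Ty Nr OnP)
open Vale.Agent.P057DR (mul_exp pow_exp le_exp)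

namespace Vale.Agent.P057AS

noncomputable section

theorem num_err {Y k : ℝ} (hY : 2 ≤ Y) (hk : k ≤ exp Y) :
    exp (-(5 * Y)) * exp Y * exp Y + 2 * exp (-(5 * Y)) * exp Y * exp Y +
      8 * exp Y * exp (exp Y) * exp (k - exp Y ^ 2) ≤ exp (-Y) / 2 := by
  have hP := seven_le hY
  have e1 : exp (-(5 * Y)) * exp Y * exp Y * (exp Y * exp Y) = exp (-Y) := by
    simp only [← exp_add]; congr 1; ring
  have e2 : exp Y * exp (exp Y) * exp (k - exp Y ^ 2) * (exp Y * exp Y) ≤ exp (-Y) := by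
    simp only [← exp_add]
    exact exp_le_exp.2 (by nlinarith [add_one_le_exp Y])
  have p1 : 0 ≤ exp (-(5 * Y)) * exp Y * exp Y := by positivity
  have p2 : 0 ≤ exp Y * exp (exp Y) * exp (k - exp Y ^ 2) := by positivity
  have p3 : 49 ≤ exp Y * exp Y := by nlinarith
  nlinarith [mul_le_mul_of_nonneg_left p3 p1, mul_le_mul_of_nonneg_left p3 p2, exp_pos (-Y)]

theorem num_fin {Y A D a v : ℝ} (hY : 2 ≤ Y) (hA : Y ≤ A) (hv : 0 < v)
    (hD : exp (-Y) / 2 * v ≤ exp A * D) (ha : a ≤ (1 + exp A / 2) * v) :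
    exp (-A ^ 6) ≤ (exp (-Y) * (exp (-Y) / 2) / 3 * D - exp (-A ^ 6) * a) / v := by
  have hP := seven_le (hY.trans hA)
  have y6 : 32 * A ≤ A ^ 6 := by
    nlinarith [pow_le_pow_left₀ zero_le_two (hY.trans hA) 5]
  have e1 : exp (-A ^ 6) * exp A * exp A * (exp A * exp A) ≤ exp (-Y) * exp (-Y) * exp (-Y) := by
    simp only [← exp_add]; exact exp_le_exp.2 (by linarith)
  have p0 := exp_pos (-A ^ 6)
  have p1 := exp_pos (-Y)
  have e2 := mul_le_mul_of_nonneg_left (show 12 ≤ exp A * exp A by nlinarith)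
    (by positivity : 0 ≤ exp (-A ^ 6) * exp A * exp A)
  have e3 := mul_le_mul_of_nonneg_left hD (by positivity : 0 ≤ exp (-Y) * exp (-Y))
  have e4 := mul_le_mul_of_nonneg_right (e2.trans e1) hv.le
  have e5 : exp A * (6 * (exp (-A ^ 6) * exp A * v)) ≤ exp A * (exp (-Y) * exp (-Y) * D) := by
    linarith
  have e6 := le_of_mul_le_mul_left e5 (exp_pos A)
  have e7 := mul_le_mul_of_nonneg_left ha p0.le
  have e8 := mul_le_mul_of_nonneg_left hP (mul_pos p0 hv).le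
  rw [le_div_iff₀ hv]
  linarith [mul_pos p0 hv]

variable {n p s τ r d : ℕ} {ι : Type} [Fintype ι] [DecidableEq ι] {S : MS (Option (Fin n)) ι}
  {ex : Finset ι} {A Y γ ω N θ sig : ℝ} {R : Type} [Fintype R] [DecidableEq R] {T : Tow}
  {Z : Sys T (Uv n p R) Unit} {φ : (ι → ℝ) → Lu T n p R → ℝ} {Q : Matrix (Lg T n p R) ι ℤ}
  {f : ℤ → ℝ} {ξ : (Pg T n p R → ℤ) → Matrix (Fin r) (Lg T n p R) ℝ} {σ : Sel (Fin r)}
  {F : Fin σ.t → (Lu T n p R → ℤ) → ℝ} {Ω : (Pg T n p R → ℤ) → (Lg T n p R → ℤ) → Prop}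
  {L : Fin σ.t → (ι → ℝ) → ℝ}

theorem fg_eq (q : Finset ι) (ω : ℝ) (y : ι → ℝ) : (blk (S.lm none y) _)ᵀ *
    (ω ^ 2 • blk S.G (q ∩ S.st none)) * blk (S.lm none y) _ = ω ^ 2 • S.fg q none y := by
  rw [Matrix.mul_smul, Matrix.smul_mul]
  rfl

theorem hle_of (hS : S.Ok) {q : Finset ι} {L : Type} [Fintype L] {B Γ : Matrix L L ℝ}
    {M : Matrix L ↥(q ∩ S.st none) ℝ} (hB : ∀ v, qq B v ≤ 5 / 4 * γ * qq Γ v)
    (hM : ∀ u, 5 * (γ * qq Γ (M *ᵥ u)) ≤ qq (ω ^ 2 • blk S.G _) u) (y : ι → ℝ) (u) :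
    qq (ω ^ 2 • blk S.G _) (blk (S.lm none y) _ *ᵥ u) + qq B (M *ᵥ (blk (S.lm none y) _ *ᵥ u)) ≤
      qq ((2 * ω) ^ 2 • S.fg q none y) u := by
  have k1 := hB (M *ᵥ (blk (S.lm none y) _ *ᵥ u))
  have k2 := hM (blk (S.lm none y) _ *ᵥ u)
  have k3 := mul_nonneg (sq_nonneg ω)
    (qq_nonneg (posDef_blk hS.pd _).posSemidef (blk (S.lm none y) (q ∩ S.st none) *ᵥ u))
  rw [MS.fg]
  simp only [qq_smul_mat, qq_conj] at k2 ⊢
  linarith

theorem ch_nonneg (w : Pg T n p R → ℤ) (x : Lg T n p R → ℤ) : 0 ≤ ch Z (fun _ => 1) w x :=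
  tsum_nonneg fun _ => mul_nonneg (ng_nonneg _ _) zero_le_one

/-- the fibre over a good point -/
theorem fib_good (hT : T.Ok s N) (hZ : Z.Ok) (hS : S.Ok) (hc : S.Cen) (h : Sk Z γ S ex φ Q)
    (hE : Ext S ex τ A) (hγ : 2 ≤ γ) (hY : 2 ≤ Y)
    (hl : ∀ w : Pg T n p R → ℤ, IsLinearMap ℝ fun z => cL Z w z - cL Z w 0)
    (hB : ∀ z, |EG Z f θ z| ≤ exp Y)
    (hM : ∀ (w : Pg T n p R → ℤ) z, ch Z (fun _ => 1) w z ≤ exp (exp Y))
    (hP : PWS Z f θ γ sig Y ξ σ F Ω) (hι : (Fintype.card ι : ℝ) ≤ exp Y)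
    (hd : 0 < d * σ.D.natAbs ^ 2) (hL : ∀ a, Ty S {none} (BB n) (L a))
    {B : Matrix (Lg T n p R) (Lg T n p R) ℝ} (b0 : B.PosDef)
    (b1 : cv B (exp (13 * Y ^ 2) ^ 2 • blk S.G ((univ \ ex) ∩ S.st none))
      (mx Q _ ((d * σ.D.natAbs ^ 2 : ℕ) : ℤ)) = γ • bk (Gam T cU Unit (n + 2)) Li)
    (b2 : ∀ v, qq B v ≤ 5 / 4 * γ * qq (bk (Gam T cU Unit (n + 2)) Li) v)
    (b3 : ∀ u, 5 * (γ * qq (bk (Gam T cU Unit (n + 2)) Li) (mR (mx Q ((univ \ ex) ∩ S.st none)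
      ((d * σ.D.natAbs ^ 2 : ℕ) : ℤ)) *ᵥ u)) ≤ qq (exp (13 * Y ^ 2) ^ 2 • blk S.G _) u)
    {z y : ι → ℤ} (hzy : ∀ i ∉ ex, z i = y i)
    (hμ : exp (-Y) ≤ ∑' x, wL Z (rp (φ (toR z))) x * ind (Ω (rp (φ (toR z))) x))
    (hθ : tht S (univ \ ex) (exp (13 * Y ^ 2)) z ≤ 1 + exp (-(5 * Y)))
    (hn : ∀ a, Nr S {none} (BB n) (fun w => d * fm (frq σ ξ a) (φ w) - L a w) (exp Y) (toR z))
    (c : ι → ℝ) :
    ∃ (u : (Lg T n p R → ℤ) → ℝ) (b : (Lg T n p R → ℤ) → Fin r → ℝ), (∀ v, 0 ≤ u v ∧ u v ≤ 1) ∧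
      exp (-Y) * (exp (-Y) / 2) ≤ 3 * ∑' t : ↥((univ \ ex) ∩ S.st none) → ℤ,
        ng (exp (13 * Y ^ 2) ^ 2 • S.fg _ none (toR y)) (toR t - (blk (S.lm none (toR y)) _)⁻¹ *ᵥ
          fun i => (((d * σ.D.natAbs ^ 2 : ℕ) : ℝ)⁻¹ • c) i) *
        ∑' v, ng (cv B (bk (Gam T cU Unit (n + 2)) Li) (1 : Matrix (Lg T n p R) (Lg T n p R) ℤ))
            (toR v - (cL Z (rp (φ (toR y))) (toR v) - mR Q *ᵥ c)) *
          (u v * kr sig σ.K (fun j => (∑ i, (σ.D * σ.w i j : ℝ) * L i (toR (put _ t z))) - b v j) *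
            ch Z (EG Z f θ) (rp (φ (toR y))) (v + mx Q _ ((d * σ.D.natAbs ^ 2 : ℕ) : ℤ) *ᵥ t)) := by
  obtain ⟨hr, h1, h2, ⟨H, hσ, hH⟩, -, hb, hx⟩ := hP
  have e0 : ∀ i ∉ ex, toR z i = toR y i := fun i hi => by rw [toR_apply, toR_apply, hzy i hi]
  have e1 : rp (φ (toR z)) = rp (φ (toR y)) := h.onw _ _ fun i hi _ => e0 i hi
  have e2 := hE.fg hS (univ \ ex) e0
  have hΓ := posDef_bk (P057GH.pd_Gam hT.pd (cU : Uv n p R → _) Unit (n + 2)) Li
  have fb := fb_of hT hZ hS hc h hE hd y c (hl _)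
  rw [e1] at hμ
  rw [tht, e2] at hθ
  obtain ⟨z₀, h0⟩ : ∃ z₀, Ω (rp (φ (toR y))) z₀ := by
    by_contra a
    simp only [ind_neg (not_exists.1 a _), mul_zero, tsum_zero] at hμ
    exact hμ.not_gt (exp_pos _)
  have hF := (hb.2 _ _ h0).1
  obtain ⟨t₀, ht⟩ : ∃ t₀ : ↥((univ \ ex) ∩ S.st none) → ℤ, ∀ t : ↥((univ \ ex) ∩ S.st none) → ℤ,
      qq (exp (13 * Y ^ 2) ^ 2 • S.fg _ none (toR z)) (toR t - (blk (S.lm none (toR y)) _)⁻¹ *ᵥ
        fun i => (((d * σ.D.natAbs ^ 2 : ℕ) : ℝ)⁻¹ • c) i) ≤ exp Y ^ 2 →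
      qq (exp (13 * Y ^ 2) ^ 2 • S.fg _ none (toR z)) (toR t₀ - (blk (S.lm none (toR y)) _)⁻¹ *ᵥ
        fun i => (((d * σ.D.natAbs ^ 2 : ℕ) : ℝ)⁻¹ • c) i) ≤ exp Y ^ 2 := by
    by_contra a
    push Not at a
    obtain ⟨t, a1, -⟩ := a 0
    exact (a t).choose_spec.2.not_ge a1
  have k := fb.good b0 hΓ ((posDef_blk hS.pd _).smul (by positivity))
    ((hS.fg_pos _ none (toR y)).smul (by positivity)) (hle_of hS b2 b3 (toR y))
    (fine_mono fb.tri (hΓ.add b0) hΓ (a := 1 + 5 / 4 * γ) (by linarith)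
      (fun v => by rw [qq_add_mat]; linarith [b2 v]) hF)
    (fun c' => by
      simpa only [sub_sub, sub_add_eq_add_sub, add_sub_assoc] using
        fine_mono fb.tri b0 hΓ (by linarith) b2 hF (c' - mR Q *ᵥ c))
    (k₁ := fun z₀ x => kr sig σ.K (ξ (rp (φ (toR y))) *ᵥ toR (x - z₀)))
    (k := fun t (b : Fin r → ℝ) => kr sig σ.K
      fun j => (∑ i, (σ.D * σ.w i j : ℝ) * L i (toR (put _ t z))) - b j)
    (fun z₀ v j => (∑ i, (σ.D * σ.w i j : ℝ) * L i (toR (put _ t₀ z))) - (ξ (rp (φ (toR y))) *ᵥ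
      toR (v - z₀ + mx Q _ ((d * σ.D.natAbs ^ 2 : ℕ) : ℤ) *ᵥ t₀)) j)
    (P057DR.abs_ch hT hZ hB _) (ch_nonneg _) (hM _) (exp_pos _).le (fun _ _ => kr_le h1 _ _)
    (fun _ _ => kr_le h1 _ _) (exp_pos (-(5 * Y))).le (fun z₀ t v a => by
      rw [fg_eq, ← e2] at a
      have := ker_of hS hc h hE hY hr h1 h2 hσ hH hL hn a (ht t a) (v - z₀)
      rwa [e1, ← add_sub_right_comm] at this)
    hθ (exp_le_one_iff.2 (by linarith)) (δ := exp (-Y) / 2) (by positivity) (fun z₀ a => by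
      rw [b1, ← wT_shift (hl _), ← wT_shift (hl _)]
      simp only [add_sub_cancel_left]
      exact ⟨le_of_eq_of_le (by ring) (hx _ _ a).1, (hb.2 _ _ a).2⟩)
    (num_err hY ((Nat.cast_le.2 (Fintype.card_subtype_le _)).trans hι)) hμ
  rwa [fg_eq] at k

theorem pE_le (hS : S.Ok) (hE : Ext S ex τ A) {z x : ι → ℤ}
    (e : ∀ i ∉ ex, i ∉ S.st none → z i = x i) :
    pE S ex x (fun j => z j) ≤ ln2 S (fce S (BB n)) (toR z) := by
  rw [ln2_split hS (hE.sat hS), inter_eq_right.2 fun i hi => mem_BB.2 fun a => hE.off a hi]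
  refine le_add_of_le_of_nonneg (le_of_eq ?_) (ln2_nonneg hS _)
  rw [ln2, qq_msk, pE]
  refine congrArg _ (funext fun j => congrArg (_ - ·) (hS.loc j _ _ fun i hi => ?_))
  rw [toR_apply, toR_apply]
  by_cases a : i ∈ ex
  · rw [put_pos _ _ a]
  · rw [put_neg _ _ a, e i a fun b => hE.nt j j.2 (hi.1 (S.mem_st.1 b))]

theorem ch_lin (hT : T.Ok s N) (hZ : Z.Ok) (hB : ∀ z, |EG Z f θ z| ≤ exp Y) {a : ℝ} (ha : |a| ≤ 1)
    (κ : ℝ) (w : Pg T n p R → ℤ) (x : Lg T n p R → ℤ) :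
    ch Z (fun y => a * EG Z f θ y - κ) w x =
      a * ch Z (EG Z f θ) w x - κ * ch Z (fun _ => 1) w x := by
  rw [P057DR.ch_sub hT hZ fun z => abs_mul_le ha (hB z)]
  simp only [ch, mul_left_comm _ a, tsum_mul_left]

/-- **the intermediate state** -/
theorem mst : MST := by
  refine ⟨6, by norm_num, fun s N T n p R _ _ Z f θ γ sig Y A r ξ σ F Ω ι _ _ S ex φ Q τ E d L c0
    hs hT hZ hγ hY hA hl hB hM hP hS hc h hE hmo hι hm _ hμ hden hd hdY hL hn => ?_⟩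
  obtain ⟨H, hσ, hH⟩ := hP.2.2.2.1
  have h1 := hP.2.1
  have y2 : 2 * Y ≤ Y ^ 2 := by nlinarith
  have y6 : 16 * Y ^ 2 ≤ Y ^ 6 := by
    nlinarith [pow_le_pow_left₀ zero_le_two hY 4, sq_nonneg Y]
  have d0 : 0 < d * σ.D.natAbs ^ 2 := mul_pos hd (pow_pos (Int.natAbs_pos.2 hσ.hD) 2)
  have d1 : ((d * σ.D.natAbs ^ 2 : ℕ) : ℝ) ≤ exp (Y + 2 * (2 * Y ^ 2)) := by
    rw [Nat.cast_mul, Nat.cast_pow]
    refine mul_exp (by positivity) hdY (pow_exp (by positivity) (le_trans ?_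
      (cb_le hY hP.1 hH)) (by positivity) (by norm_num))
    rw [Nat.cast_natAbs]
    exact_mod_cast hσ.hD'
  have w1 : 1 ≤ exp (13 * Y ^ 2) := one_le_exp (by positivity)
  have w2 : 2 * exp (13 * Y ^ 2) ≤ exp (Y ^ 6) :=
    (mul_exp (exp_pos _).le (le_exp 1 (by norm_num)) le_rfl).trans (exp_le_exp.2 (by linarith))
  have hΓ := posDef_bk (P057GH.pd_Gam hT.pd (cU : Uv n p R → _) Unit (n + 2)) Li
  have hG := (posDef_blk hS.pd ((univ \ ex) ∩ S.st none)).smul (pow_pos (exp_pos (13 * Y ^ 2)) 2)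
  have b3 := nrm_of (d := d * σ.D.natAbs ^ 2) (ω := exp (13 * Y ^ 2)) h hE hS (by
    rw [← exp_nat_mul]
    exact (mul_exp (by positivity) (le_exp 4 (by norm_num)) (mul_exp (by positivity)
      (pow_exp (by positivity) d1 (by positivity) le_rfl) hι)).trans
      (exp_le_exp.2 (by push_cast; linarith)))
  obtain ⟨B, b0, b1, b2, b4, b5⟩ := exists_gram hΓ hG _ hγ b3
  have hB2 := (ng_conv b0 hΓ 1).1
  have fb := fun y => fb_of hT hZ hS hc h hE d0 y (c0 y) (hl _)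
  choose u y' b k1 k2 k3 using fun y : ι → ℤ => show ∃ (u : (Lg T n p R → ℤ) → ℝ) (y' : ex → ℤ)
      (b : (Lg T n p R → ℤ) → Fin r → ℝ), (∀ v, 0 ≤ u v ∧ u v ≤ 1) ∧
      (∀ v, u v ≠ 0 → ∀ x, (∀ i ∉ S.st none, y i = x i) → pE S ex x y' ≤ exp (Y ^ 6)) ∧
      exp (-Y) * (exp (-Y) / 2) / 3 *
          ind (∃ z, (∀ i ∉ ex, z i = y i) ∧ Gd S ex E (exp (13 * Y ^ 2)) Y z) ≤
        ∑' t : ↥((univ \ ex) ∩ S.st none) → ℤ,
        ng (exp (13 * Y ^ 2) ^ 2 • S.fg _ none (toR y)) (toR t - (blk (S.lm none (toR y)) _)⁻¹ *ᵥ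
          fun i => (((d * σ.D.natAbs ^ 2 : ℕ) : ℝ)⁻¹ • c0 y) i) *
        ∑' v, ng (cv B (bk (Gam T cU Unit (n + 2)) Li) 1)
            (toR v - (cL Z (rp (φ (toR y))) (toR v) - mR Q *ᵥ c0 y)) *
          (u v * kr sig σ.K (fun j => (∑ i, (σ.D * σ.w i j : ℝ) *
              L i (toR (put ex y' (put _ t y)))) - b v j) *
            ch Z (EG Z f θ) (rp (φ (toR y))) (v + mx Q _ ((d * σ.D.natAbs ^ 2 : ℕ) : ℤ) *ᵥ t)) by
    by_cases a : ∃ z, (∀ i ∉ ex, z i = y i) ∧ Gd S ex E (exp (13 * Y ^ 2)) Y z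
    · rw [ind_pos a]
      obtain ⟨z, a1, a2, a3, a4⟩ := a
      obtain ⟨u, b, c1, c2⟩ := fib_good hT hZ hS hc h hE hγ hY hl hB hM hP hι d0 hL b0 b1 b2 b3 a1
        (hμ z a2) a3 (hn z a2) (c0 y)
      refine ⟨u, fun j => z j, b, c1, fun v _ x e => (pE_le hS hE fun i c c' =>
        (a1 i c).trans (e i c')).trans (a4.trans ?_), ?_⟩
      · rw [← exp_nat_mul]
        exact exp_le_exp.2 (by push_cast; linarith)
      · have e : ∀ t : ↥((univ \ ex) ∩ S.st none) → ℤ,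
            put ex (fun j => z j) (put _ t y) = put _ t z := fun t => funext fun i => by
          by_cases c : i ∈ ex
          · rw [put_pos _ _ c, put_neg _ _ fun c' => hE.off (hE.mem.1 c') c]
          · rw [put_neg _ _ c]
            by_cases c' : i ∈ (univ \ ex) ∩ S.st none
            · rw [put_pos _ _ c', put_pos _ _ c']
            · rw [put_neg _ _ c', put_neg _ _ c', a1 i c]
        simp only [e]
        rw [mul_one, div_le_iff₀' three_pos]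
        exact c2
    · exact ⟨fun _ => 0, 0, 0, fun _ => ⟨le_rfl, zero_le_one⟩, fun _ c => absurd rfl c,
        by simp [ind_neg a]⟩
  refine ⟨exp (13 * Y ^ 2), d * σ.D.natAbs ^ 2, _, fun x => u (mix (S.st none) 0 x),
    fun x => y' (mix (S.st none) 0 x), fun x => b (mix (S.st none) 0 x), w1, by linarith, d0,
    d1.trans (exp_le_exp.2 (by linarith)), hB2, b5, fun x x' e => ?_, fun x => k1 _,
    fun x v a => k2 _ v a x fun i hi => mix_neg _ _ hi, ?_⟩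
  · have : mix (S.st none) 0 x = mix (S.st none) 0 x' := funext fun i => by
      by_cases a : i ∈ S.st none
      · rw [mix_pos _ _ a, mix_pos _ _ a]
      · rw [mix_neg _ _ a, mix_neg _ _ a, e i fun c => a (S.mem_st.2 c)]
    simp only [this, and_self]
  obtain ⟨K1, hK1⟩ := ms_bdd hB2
  obtain ⟨K2, hK2⟩ := ms_bdd (hΓ.smul (by positivity : 0 < γ / (1 + γ)))
  have c1 : ∀ (w : Pg T n p R → ℤ) x, |ch Z (fun _ => 1) w x| ≤ exp (exp Y) := fun w x => by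
    rw [abs_of_nonneg (ch_nonneg w x)]; exact hM w x
  have c2 : ∀ (w : Pg T n p R → ℤ) x, |ch Z (EG Z f θ) w x| ≤ exp Y * exp (exp Y) := fun w x =>
    (P057DR.abs_ch hT hZ hB w x).trans (mul_le_mul_of_nonneg_left (hM w x) (exp_pos _).le)
  have c3 : ∀ y v (a : Fin r → ℝ), |u y v * kr sig σ.K a| ≤ 1 := fun y v a =>
    abs_mul_le (abs_le.2 ⟨by linarith [(k1 y v).1], (k1 y v).2⟩) (kr_le h1 _ _)
  have c4 : ∀ (y : ι → ℤ) {g : (Lg T n p R → ℤ) → ℝ} {C : ℝ}, (∀ v, |g v| ≤ C) →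
      |∑' v, ng (cv B (bk (Gam T cU Unit (n + 2)) Li) 1)
        (toR v - (cL Z (rp (φ (toR y))) (toR v) - mR Q *ᵥ c0 y)) * g v| ≤ C * K1 := fun y _ _ a =>
    (abs_tsum_mul (summable_ng (fb y).tri' hB2) (fun _ => ng_nonneg _ _) a).trans
      (mul_le_mul_of_nonneg_left (hK1 _ _ (fb y).tri') ((abs_nonneg _).trans (a 0)))
  have c5 : ∀ x : ι → ℤ, ∀ v : Lg T n p R → ℤ, (toR v - cL Z (rp (φ (toR x))) (toR v) +
      fun l : Lg T n p R => φ (c0 x) l) =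
      toR v - (cL Z (rp (φ (toR x))) (toR v) - mR Q *ᵥ c0 x) := fun x v => by
    rw [funext (h.rl _), sub_sub_eq_add_sub, sub_add_eq_add_sub]
  rw [← core_BB] at hmo
  obtain ⟨a0, ha, hs0⟩ := theta_mom (v := none) hS hc hE.cls hm (by linarith)
    (by linarith : 1 ≤ 2 * exp (13 * Y ^ 2)) w2 (g := fun y => gm Z γ (rp (φ (toR y))))
    (fun y => tsum_nonneg fun _ => mul_nonneg (ng_nonneg _ _) (ch_nonneg _ _))
    (fun y => (le_abs_self _).trans ((abs_tsum_mul (summable_ng (fb y).tri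
      (hΓ.smul (by positivity))) (fun _ => ng_nonneg _ _) (c1 _)).trans
      (mul_le_mul_of_nonneg_left (hK2 _ _ (fb y).tri) (exp_pos _).le))) hmo
  have hD := den_good hE hS hc hY w1 w2 hm hι hden
  rw [← core_BB] at hD
  refine (num_fin hY hA (vl_pos hS.pd _) hD ha).trans (glob hS hc w1
    (a := fun y => (blk (S.lm none (toR y)) _)⁻¹ *ᵥ
      fun i => (((d * σ.D.natAbs ^ 2 : ℕ) : ℝ)⁻¹ • c0 y) i) (fun y hy t => ?_)
    (C := (exp Y + 1) * exp (exp Y) * K1) (fun x => ?_)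
    (lo := fun y => exp (-Y) * (exp (-Y) / 2) / 3 *
      ind (∃ z, (∀ i ∉ ex, z i = y i) ∧ Gd S ex E (exp (13 * Y ^ 2)) Y z) - exp (-A ^ 6) *
      (tht S (univ \ ex) (exp (13 * Y ^ 2)) y * gm Z γ (rp (φ (toR y)))))
    ((((hS.summable_re _ fun y => abs_ind _).hasSum.mul_left _).sub (hs0.mul_left _)).congr_fun
      fun y => by rw [tht]; ring) fun y hy => ?_)
  · rw [hs.2 (put _ t y) y fun i _ a => put_neg _ _ fun c => a (S.mem_st.1 (hE.mem.1 c))]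
    exact wsh_put hS hc w1 hE.sub (fun i hi => by
      rw [Pi.smul_apply, hs.1 y i fun c => hi (S.mem_st.2 c), smul_zero]) hy t
  · simp only [c5]
    refine c4 x fun v => (P057DR.abs_ch hT hZ (K := exp Y + 1) (fun z => (abs_sub _ _).trans
      (add_le_add (abs_mul_le (c3 _ _ _) (hB z)) ?_)) _ _).trans
      (mul_le_mul_of_nonneg_left (hM _ _) (by positivity))
    rw [abs_of_pos (exp_pos _)]
    exact exp_le_one_iff.2 (neg_nonpos.2 (by positivity))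
  · have e1 : ∀ t : ↥((univ \ ex) ∩ S.st none) → ℤ, mix (S.st none) 0 (put _ t y) = y :=
      fun t => funext fun i => by
        by_cases a : i ∈ S.st none
        · rw [mix_pos _ _ a, hy i a, Pi.zero_apply]
        · rw [mix_neg _ _ a, put_neg _ _ fun c => a (hE.mem.1 c)]
    have e2 : ∀ t : ↥((univ \ ex) ∩ S.st none) → ℤ, c0 (put _ t y) = c0 y := fun t =>
      hs.2 _ _ fun i _ a => put_neg _ _ fun c => a (S.mem_st.1 (hE.mem.1 c))
    have e3 : ∀ (t : ↥((univ \ ex) ∩ S.st none) → ℤ) (v : Lg T n p R → ℤ),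
        (fun l : Lg T n p R => v l + (d * σ.D.natAbs ^ 2 : ℕ) * round (φ (toR (put _ t y)) l)) =
          v + mx Q _ ((d * σ.D.natAbs ^ 2 : ℕ) : ℤ) *ᵥ t := fun t v => funext fun l => by
      have := mx_mul (h.mem hE) ((d * σ.D.natAbs ^ 2 : ℕ) : ℤ) (put _ t y)
      rw [show (fun i : ↥((univ \ ex) ∩ S.st none) => put _ t y (i : ι)) = t from
        funext fun i => put_coe _ _ i] at this
      rw [this, h.rl, ← toR_mulVec, toR_apply, round_intCast]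
      rfl
    have m := (fb y).mass hB2 hG ((hS.fg_pos _ none (toR y)).smul (by positivity))
      (hle_of hS (fun v => (b5 v).trans (le_mul_of_one_le_left (qq_nonneg hΓ.posSemidef v)
        (by linarith))) b3 (toR y)) (ch_nonneg (Z := Z) (rp (φ (toR y)))) (hM _)
    rw [b4, fg_eq] at m
    simp only [c5, e1, e2, e3, h.put, ch_lin hT hZ hB (c3 _ _ _)]
    refine le_trans ?_ (low3 (summ_zero ((hS.fg_pos _ none (toR y)).smul (by positivity)) _)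
      (fun _ => ng_nonneg _ _) (C := (exp Y * exp (exp Y) + exp (exp Y)) * K1)
      (fun t => c4 y fun v => (abs_sub _ _).trans (add_le_add (abs_mul_le (c3 _ _ _) (c2 _ _))
        (abs_mul_le ?_ (c1 _ _))))
      (fun t => c4 y fun v => abs_mul_le (c3 y v fun j => (∑ i, (σ.D * σ.w i j : ℝ) *
        L i (toR (put ex (y' y) (put _ t y)))) - b y v j)
        (c2 (rp (φ (toR y))) (v + mx Q _ ((d * σ.D.natAbs ^ 2 : ℕ) : ℤ) *ᵥ t)))
      (fun t => c4 y fun v => c1 (rp (φ (toR y))) (v + mx Q _ ((d * σ.D.natAbs ^ 2 : ℕ) : ℤ) *ᵥ t))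
      (g₃ := fun _ => 0) (fun _ => abs_zero.le) (exp (-A ^ 6)) 0 fun t => ?_)
    · rw [zero_mul, sub_zero]
      exact sub_le_sub (k3 y) (mul_le_mul_of_nonneg_left m (exp_pos (-A ^ 6)).le)
    · rw [abs_of_pos (exp_pos _)]
      exact exp_le_one_iff.2 (neg_nonpos.2 (by positivity))
    · rw [zero_mul, sub_zero, ← tsum_mul_left, ← Summable.tsum_sub (summable_mul_real
        (summable_ng (fb y).tri' hB2) (fun _ => ng_nonneg _ _) fun v => abs_mul_le (c3 _ _ _)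
        (c2 _ _)) ((summable_mul_real (summable_ng (fb y).tri' hB2) (fun _ => ng_nonneg _ _)
        fun v => c1 _ _).mul_left _)]
      exact le_of_eq (tsum_congr fun v => by ring)

end

end Vale.Agent.P057AS
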