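import Vale.Agent.P057FC.Defs

/-!
From the multi-affine model to a kernel state: the intermediate state and the blocks.
-/

set_option linter.all false

open Matrix Finset Real
open Vale.Agent.P267.H775 Vale.Agent.P057G Vale.Agent.P057PC Vale.Agent.P057TP Vale.Agent.P057MA
open Vale.Agent.P057SG Vale.Agent.P057FC
open Vale.Agent.P057ST (mR)
open Vale.Agent.P057T1 (ind)
open Vale.Agent.P057DP (Sel)
open Vale.Agent.P057SY (KS fo WO Xt sk Dg jn)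
open Vale.Agent.P057IV (OnP den Ty Nr Mg Sy Clos)

namespace Vale.Agent.P057AS

noncomputable section

open Classical

/-- the mass of the labels through the special vertex -/
def gm {T : Tow} {C U : Type} {cl : U → C} {m : ℕ} [Fintype U] [DecidableEq U] (Z : Sys T U Unit)
    (γ : ℝ) (w : PW T cl m → ℤ) : ℝ :=
  ∑' z, ng ((γ / (1 + γ)) • bk (Gam T cl Unit m) Li) (toR z - cL Z w (toR z)) *
    ch Z (fun _ => 1) w z

section gen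

variable {C ι : Type} [DecidableEq C] [Fintype ι] [DecidableEq ι]

/-- the squared length of the position of the extra coordinates `y` over `x` -/
def pE (S : MS (Option C) ι) (ex : Finset ι) (x : ι → ℤ) (y : ex → ℤ) : ℝ :=
  qq (blk S.G ex) fun j => (y j : ℝ) - S.p (toR (put ex y x)) j

/-- the coordinates in `ex` lie on top of the others and miss the displacement -/
structure Ext (S : MS (Option C) ι) (ex : Finset ι) (τ : ℕ) (A : ℝ) : Prop where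
  up : ∀ j ∈ ex, ∀ i ∉ ex, S.lv i < S.lv j
  lt : ∀ j ∈ ex, S.lv j < τ
  nt : ∀ j ∈ ex, none ∉ S.fc j
  card : (ex.card : ℝ) ≤ A
  sep : ∀ y : ex → ℤ, y ≠ 0 → 1 ≤ qq (blk S.G ex) (toR y)
  cx : cx S.G ex ≤ exp A

/-- the weight of the subsystem on `q` with the centres moved by `a` -/
def wsh (S : MS (Option C) ι) (q : Finset ι) (a : ι → ℝ) (x : ι → ℤ) : ℝ :=
  if ∀ i ∉ q, x i = 0 then gs S.G (msk q (toR x - S.p (toR x) - a)) else 0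

/-- a shift of the centres over the displacement that depends on the other core coordinates -/
def Sh (S : MS (Option C) ι) (ex : Finset ι) (c0 : (ι → ℤ) → ι → ℝ) : Prop :=
  (∀ x i, none ∉ S.fc i → c0 x i = 0) ∧
    ∀ x x', (∀ i ∉ ex, none ∉ S.fc i → x i = x' i) → c0 x = c0 x'

/-- the core coordinates read off from the labels of a cube system -/
def xe {Λ L : Type} (lab : Λ → ι) (β : Λ → L) (r md : Λ → ℤ) (z : L → ℤ) : ι → ℤ :=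
  Function.extend lab (fun j => r j + md j * z (β j)) 0

end gen

variable {n p : ℕ} {R : Type} [Fintype R] [DecidableEq R] {T : Tow}
  {ι : Type} [Fintype ι] [DecidableEq ι]

/-- the old labels -/
abbrev Lu (T : Tow) (n p : ℕ) (R : Type) : Type := Lb T (cU : Uv n p R → _) Unit (n + 2)

/-- the live vertices of a label -/
def lvf {O : Type} {pa : O → Uv n p R} (l : Lo T pa) : Finset (Option (Wv n p)) :=
  univ.filter fun v => v.map Sum.inl ∈ l.fc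

/-- the map `φ` to the old pure labels; `Q` is its matrix on the linear fibre -/
structure Sk (Z : Sys T (Uv n p R) Unit) (γ : ℝ) (S : MS (Option (Fin n)) ι) (ex : Finset ι)
    (φ : (ι → ℝ) → Lu T n p R → ℝ) (Q : Matrix (Lg T n p R) ι ℤ) : Prop where
  int : ∀ x : ι → ℤ, ∃ y, φ (toR x) = toR y
  onw : ∀ x x', (∀ i ∉ ex, none ∉ S.fc i → x i = x' i) → rp (φ x) = rp (φ x')
  rl : ∀ x (l : Lg T n p R), φ x l = (mR Q *ᵥ x) l
  sup : ∀ l i, Q l i ≠ 0 → none ∈ S.fc i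
  pos : ∀ x : ι → ℤ, cL Z (rp (φ (toR x))) (mR Q *ᵥ toR x) - cL Z (rp (φ (toR x))) 0 =
    mR Q *ᵥ S.p (toR x)
  nrm : ∀ v, γ * qq (bk (Gam T cU Unit (n + 2)) Li) (mR Q *ᵥ v) ≤ Fintype.card ι * qq S.G v

/-- the second moment of the mass through the special vertex over the core -/
def Mom (Z : Sys T (Uv n p R) Unit) (γ : ℝ) (S : MS (Option (Fin n)) ι) (q : Finset ι)
    (φ : (ι → ℝ) → Lu T n p R → ℝ) (A : ℝ) : Prop :=
  ∑' x, S.wt q x * gm Z γ (rp (φ (toR x))) ^ 2 ≤ exp A * vl S.G q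

/-- the intermediate state: core with the displacement narrowed by `ω`, base point `z`, other
labels over the point `z + d * displacement` -/
def MSt (Z : Sys T (Uv n p R) Unit) (S : MS (Option (Fin n)) ι) (ex : Finset ι)
    (φ : (ι → ℝ) → Lu T n p R → ℝ) (c0 : (ι → ℤ) → ι → ℝ) (ω : ℝ) (d : ℕ)
    (G : Matrix (Lg T n p R) (Lg T n p R) ℝ)
    (h : (ι → ℤ) → (Lg T n p R → ℤ) → ℝ) (f : ℤ → ℝ) (θ κ σ : ℝ) : Prop :=
  σ ≤ ∑' x, wsh (dil S {none} ω) (univ \ ex) ((d : ℝ)⁻¹ • c0 x) x /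
      vl (dil S {none} ω).G (univ \ ex) *
    ∑' z, ng G (toR z - cL Z (rp (φ (toR x))) (toR z) + fun l : Lg T n p R => φ (c0 x) l) *
      ch Z (fun y => h x z * EG Z f θ y - κ) (rp (φ (toR x)))
        fun l => z l + d * round (φ (toR x) l)

/-- algebra of the model -/
def SIG : Prop :=
  ∀ (s : ℕ) (N : ℝ) (T : Tow) (n p : ℕ) (R : Type) [Fintype R] [DecidableEq R]
    (Z : Sys T (Uv n p R) Unit), T.Ok s N → Z.Ok →
    (∀ w : Pg T n p R → ℤ, IsLinearMap ℝ fun z => cL Z w z - cL Z w 0) ∧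
    ∀ (γ U : ℝ) (ι : Type) [Fintype ι] [DecidableEq ι] (S : MS (Option (Fin n)) ι)
      (φ : (ι → ℝ) → Lu T n p R → ℝ) (k : ℕ) (M : Mdd T n p R ι), S.Ok → Md M Z γ S φ k U →
      ∃ Q, Sk Z γ S M.ex φ Q

/-- the model and the moment bound survive the steps of a chain -/
def GDC (s : ℕ) : Prop :=
  ∀ j : ℕ, ∃ c : ℕ, 1 ≤ c ∧ ∀ (N : ℝ) (P : ℕ → ℝ) (T : Tow) (n p : ℕ) (R : Type) [Fintype R]
    [DecidableEq R] (Z : Sys T (Uv n p R) Unit) (f : ℤ → ℝ) (θ γ lam Λ Y Y' : ℝ),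
    Ctx s N c P T n p R Z f θ (P (n + 2)) → (c : ℝ) ≤ Y → Y ≤ P (n + 2) → (c : ℝ) ≤ Y' →
    P 0 ^ c ≤ Λ → P 0 ^ c ≤ γ → P 0 ^ c ≤ lam → γ ≤ exp (P (n + 2)) → lam ≤ exp (P (n + 2)) →
    ∃ Gd : (Fz T n p R → ℤ) → ℕ → (X' : Sy (Option (Fin n))) →
        ((X'.ι → ℝ) → Lv T n p R → ℝ) → Prop,
      (∀ D, Clos (BB n) Λ (exp (P (n + 2))) (P (n + 2)) Y' (exp (-Y)) (rootS Z lam γ D) (Gd D)) ∧
      ∑' D, wD Z D * ind (¬ Gd D j (rootS Z lam γ D) id) ≤ exp (-Y) ∧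
      ∀ D X' φ, Gd D 0 X' φ → ∃ (k : ℕ) (M : Mdd T n p R X'.ι), k ≤ j ∧
        Md M Z γ X'.S (fun x => rmap D (φ x)) k (P (n + 2)) ∧
        Mom Z γ X'.S M.cw (fun x => rmap D (φ x)) (P (n + 2) ^ c)

/-- the intermediate state -/
def MST : Prop :=
  ∃ c : ℕ, 1 ≤ c ∧ ∀ (s : ℕ) (N : ℝ) (T : Tow) (n p : ℕ) (R : Type) [Fintype R] [DecidableEq R]
    (Z : Sys T (Uv n p R) Unit) (f : ℤ → ℝ) (θ γ sig Y A : ℝ) (r : ℕ)
    (ξ : (Pg T n p R → ℤ) → Matrix (Fin r) (Lg T n p R) ℝ) (σ : Sel (Fin r))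
    (F : Fin σ.t → (Lu T n p R → ℤ) → ℝ) (Ω : (Pg T n p R → ℤ) → (Lg T n p R → ℤ) → Prop)
    (ι : Type) [Fintype ι] [DecidableEq ι] (S : MS (Option (Fin n)) ι) (ex : Finset ι)
    (φ : (ι → ℝ) → Lu T n p R → ℝ) (Q : Matrix (Lg T n p R) ι ℤ) (τ : ℕ) (E : (ι → ℝ) → Prop)
    (d : ℕ) (L : Fin σ.t → (ι → ℝ) → ℝ) (c0 : (ι → ℤ) → ι → ℝ), Sh S ex c0 → T.Ok s N → Z.Ok →
    2 ≤ γ → 2 ≤ Y → Y ≤ A →
    (∀ w : Pg T n p R → ℤ, IsLinearMap ℝ fun z => cL Z w z - cL Z w 0) →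
    (∀ z, |EG Z f θ z| ≤ exp Y) →
    (∀ (w : Pg T n p R → ℤ) z, ch Z (fun _ => 1) w z ≤ exp (exp Y)) →
    PWS Z f θ γ sig Y ξ σ F Ω → S.Ok → S.Cen → Sk Z γ S ex φ Q → Ext S ex τ A →
    Mom Z γ S (fce S (BB n) \ ex) φ A → (Fintype.card ι : ℝ) ≤ exp Y → Mg S (Y ^ c) →
    OnP (fce S (BB n)) E →
    (∀ z, E (toR z) → exp (-Y) ≤ ∑' x, wL Z (rp (φ (toR z))) x * ind (Ω (rp (φ (toR z))) x)) →
    exp (-Y) ≤ den S (BB n) E → 0 < d → (d : ℝ) ≤ exp Y → (∀ a, Ty S {none} (BB n) (L a)) →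
    (∀ z, E (toR z) → ∀ a, Nr S {none} (BB n)
      (fun w => d * fm (frq σ ξ a) (φ w) - L a w) (exp Y) (toR z)) →
    ∃ (ω : ℝ) (d' : ℕ) (G : Matrix (Lg T n p R) (Lg T n p R) ℝ)
      (u : (ι → ℤ) → (Lg T n p R → ℤ) → ℝ) (y : (ι → ℤ) → ex → ℤ)
      (b : (ι → ℤ) → (Lg T n p R → ℤ) → Fin r → ℝ), 1 ≤ ω ∧ ω ≤ exp (Y ^ c) ∧ 0 < d' ∧
      (d' : ℝ) ≤ exp (Y ^ c) ∧ G.PosDef ∧ (∀ v, qq G v ≤ qq (bk (Gam T cU Unit (n + 2)) Li) v) ∧
      (∀ x x', (∀ i, none ∉ S.fc i → x i = x' i) → u x = u x' ∧ y x = y x' ∧ b x = b x') ∧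
      (∀ x z, 0 ≤ u x z ∧ u x z ≤ 1) ∧ (∀ x z, u x z ≠ 0 → pE S ex x (y x) ≤ exp (Y ^ c)) ∧
      MSt Z S ex φ c0 ω d' G (fun x z => u x z * kr sig σ.K fun j =>
        (∑ i, (σ.D * σ.w i j : ℝ) * L i (toR (put ex (y x) x))) - b x z j) f θ (exp (-A ^ c))
        (exp (-A ^ c))

/-- from the intermediate state to a state on a cube system over the vertices of the grid -/
def TRF (s : ℕ) : Prop :=
  ∀ j : ℕ, ∃ c : ℕ, 1 ≤ c ∧ ∀ (N : ℝ) (P : ℕ → ℝ) (T : Tow) (n p : ℕ) (R : Type) [Fintype R]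
    [DecidableEq R] (Z : Sys T (Uv n p R) Unit) (f : ℤ → ℝ) (θ γ : ℝ) (k : ℕ) (ι : Type)
    [Fintype ι] [DecidableEq ι] (S : MS (Option (Fin n)) ι) (φ : (ι → ℝ) → Lu T n p R → ℝ)
    (M : Mdd T n p R ι), Lad s N c P → T.Ok s N → T.Cx N P → Z.Ok →
    n + 1 ≤ s → Unit01 f → (p : ℝ) ≤ P (n + 2) → (Fintype.card R : ℝ) ≤ P (n + 2) → S.Ok → k ≤ j →
    Md M Z γ S φ k (P (n + 2)) → ∃ c0 : (ι → ℤ) → ι → ℝ, Sh S M.ex c0 ∧
    ∀ (B κ σ ω : ℝ) (d : ℕ) (G : Matrix (Lg T n p R) (Lg T n p R) ℝ)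
    (h : (ι → ℤ) → (Lg T n p R → ℤ) → ℝ), 1 ≤ ω → ω ≤ exp (P (n + 2)) → 0 < d →
    (d : ℝ) ≤ exp (P (n + 2)) → G.PosDef →
    (∀ v, qq G v ≤ qq (bk (Gam T cU Unit (n + 2)) Li) v) → (∀ x z, |h x z| ≤ 1) →
    (∀ z, |EG Z f θ z| ≤ B) → 0 < σ → MSt Z S M.ex φ c0 ω d G h f θ κ σ →
    ∃ (T' : Tow) (Z' : Sys T' (Wv n p) Unit) (β : Lvo T M.π → Lb T' Prod.fst Unit (n + 2))
      (r md : Lvo T M.π → ℤ) (zo : (Lb T' Prod.fst Unit (n + 2) → ℤ) → Lg T n p R → ℤ),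
      T'.Ok s N ∧ Z'.Ok ∧ Up (n + 2) T' T ∧ T.Grow N T' (fun e => P e ^ c) ∧
      (∀ l, (β l).Pure ∧ fo (β l) = lvf l.1) ∧ WO zo ∧
      Z'.St Prod.fst (n + 2) (fun z => h (xe M.lab β r md z) (zo z) *
        Z'.Ex0 Prod.fst (n + 2) f θ z) B κ (σ * exp (-P 0 ^ c))

/-- extra coordinates on faces of classes are split into extra coordinates on faces of vertices -/
def DEM : Prop :=
  ∃ c : ℕ, 1 ≤ c ∧ ∀ (T : Tow) (C W : Type) [Fintype C] [DecidableEq C] [Fintype W]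
    [DecidableEq W] (cl : W → C) (m : ℕ) (ι Λ J : Type) [Fintype ι] [DecidableEq ι]
    (S : MS (Option C) ι) (ex : Finset ι) (lab : Λ → ι) (β : Λ → Lb T cl Unit m) (r md : Λ → ℤ)
    (L : J → (ι → ℝ) → ℝ) (τ : ℕ) (A : ℝ), S.Ok → S.Cen → 2 ≤ A → cl.Surjective →
    (Fintype.card W : ℝ) ^ Fintype.card C ≤ A → Ext S ex τ A → lab.Injective →
    (∀ i, i ∈ ex ↔ i ∉ Set.range lab) →
    (∀ j, (β j).Pure ∧ S.fc (lab j) = (fo (β j)).image (Option.map cl)) →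
    (∀ j, Lin (S.st none) (L j) ∧ ∀ b, Aff (S.st (some b)) (L j)) →
    ∃ (E : Type) (_ : Fintype E) (_ : DecidableEq E) (X : Xt (Option W) (Lb T cl Unit m) E)
      (Φ : (Lb T cl Unit m ⊕ E → ℝ) → J → ℝ) (lt : (Lb T cl Unit m → ℤ) → (ex → ℤ) → E → ℤ),
      X.Ok (sk T cl m) ∧ X.Sz τ (A ^ c) ∧ (∀ j, none ∉ X.fc j) ∧
      (∀ j, Dg X (Fintype.card C + 1) fun x => Φ x j) ∧ WO lt ∧
      ∀ z y, (pE S ex (xe lab β r md z) y ≤ exp A →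
          qq X.G (toR (lt z y) - X.g (jn z (lt z y))) ≤ exp (A ^ c)) ∧
        ∀ j, Φ (jn z (lt z y)) j = L j (toR (put ex y (xe lab β r md z))) -
          L j (toR (put ex y (xe lab β r md fun l => if l.bs = none then z l else 0)))

/-- the assembly -/
def ASB (s : ℕ) : Prop := SIG → GDC s → MST → TRF s → DEM → ASM s

end

end Vale.Agent.P057AS
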